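import Vale.Agent.P146.H246.Levels
import Vale.Agent.P146.H347.Mod3

/-!
Rank one given the frozen coordinates for the modulated SK system of `H347` (coordinates
`Co n LB LF`, frozen set `Kset S BL FL`): the window of the shares of the fields
(`rank_fields`), and the window of the shares of the bonds (`rank_bonds`).
-/

open MeasureTheory ProbabilityTheory

namespace Vale.Agent.P146.H246

open Vale.Agent.P157.Lv Vale.Agent.P146.H425 Vale.Agent.P146.H332 Vale.Agent.P146.H646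
open Vale.Agent.P146.H196 Vale.Agent.P146.H347 Vale.Agent.P146.H325 Vale.Agent.P146.H816

set_option linter.unusedSectionVars false

variable {n : ℕ} {LB LF : Type} [Fintype LB] [DecidableEq LB] [Fintype LF] [DecidableEq LF]

/-- forget the levels -/
def p0 (n : ℕ) (LB LF : Type) : Co n LB LF → Co n Unit Unit :=
  Sum.map (Sum.map (fun e => (e.1, ())) fun e => (e.1, ())) id

/-- the coefficients of the levels -/
noncomputable def c0 (n : ℕ) (cB : LB → ℝ) (cF : LF → ℝ) (CB CF : ℝ) : Co n LB LF → ℝ :=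
  Sum.elim (Sum.elim (fun e => cB e.2 / CB) fun e => cF e.2 / CF) fun _ => 1

variable {b s η CB CF : ℝ} {cB : LB → ℝ} {cF : LF → ℝ}

/-- the basic energies -/
noncomputable abbrev Sb (n : ℕ) (b CB CF s η : ℝ) : Co n Unit Unit → ℝ × Xs n → ℝ :=
  Sm b (fun _ : Unit => CB) (fun _ : Unit => CF) s η

theorem lvl (hB : CB ≠ 0) (hF : CF ≠ 0) :
    Lvl (p0 n LB LF) (c0 n cB cF CB CF) (Sb n b CB CF s η) (Sm b cB cF s η) := by
  intro j w
  rcases j with (⟨q, l⟩ | ⟨i, l⟩) | j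
  · show b / √n * cB l * SkS q w.2 = cB l / CB * (b / √n * CB * SkS q w.2)
    field_simp
  · show cF l * sp w.2 i = cF l / CF * (CF * sp w.2 i)
    field_simp
  · show _ = 1 * _
    rw [one_mul]
    rfl

/-! ### the fibres -/

lemma fib_bd (q : Pair n) (g : Co n LB LF → ℝ) :
    ∑ j with p0 n LB LF j = bd Unit q (), g j = ∑ l, g (bd LF q l) := by
  have e : (Finset.univ.filter fun j => p0 n LB LF j = bd Unit q ()) =
      Finset.univ.image fun l => bd LF q l := by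
    ext j
    rcases j with (⟨q', l⟩ | ⟨i, l⟩) | j <;> simp [p0, eq_comm]
  rw [e, Finset.sum_image]
  intro l _ l' _ h
  simpa using h

lemma fib_fd (i : Fin n) (g : Co n LB LF → ℝ) :
    ∑ j with p0 n LB LF j = fd Unit i (), g j = ∑ l, g (fd LB i l) := by
  have e : (Finset.univ.filter fun j => p0 n LB LF j = fd Unit i ()) =
      Finset.univ.image fun l => fd LB i l := by
    ext j
    rcases j with (⟨q', l⟩ | ⟨i, l⟩) | j <;> simp [p0, eq_comm]
  rw [e, Finset.sum_image]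
  intro l _ l' _ h
  simpa using h

lemma fib_gd (i : Fin n) (g : Co n LB LF → ℝ) :
    ∑ j with p0 n LB LF j = gd Unit Unit i, g j = g (gd LB LF i) := by
  have e : (Finset.univ.filter fun j => p0 n LB LF j = gd Unit Unit i) = {gd LB LF i} := by
    ext j
    rw [Finset.mem_filter, Finset.mem_singleton]
    refine ⟨fun h => ?_, fun h => ⟨Finset.mem_univ _, by rw [h]; rfl⟩⟩
    have h2 := h.2
    rcases j with (⟨q', l⟩ | ⟨i', l⟩) | j
    · exact absurd h2 (by simp [p0])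
    · exact absurd h2 (by simp [p0])
    · have h3 : (Sum.inr j : Co n Unit Unit) = Sum.inr i := h2
      rw [Sum.inr.inj h3]
  rw [e, Finset.sum_singleton]

variable {S : Finset (Fin n)} {BL : Finset LB} {FL : Finset LF}

/-- the shares of the levels: `t` for the frozen bonds, `u` for the frozen fields -/
structure Sh (cB : LB → ℝ) (cF : LF → ℝ) (BL : Finset LB) (FL : Finset LF) (CB CF t u : ℝ) :
    Prop where
  totB : ∑ l, cB l ^ 2 = CB ^ 2
  totF : ∑ l, cF l ^ 2 = CF ^ 2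
  shB : ∑ l ∈ BL, cB l ^ 2 = t * CB ^ 2
  shF : ∑ l ∈ FL, cF l ^ 2 = u * CF ^ 2

/-- the frozen shares of the basic coordinates -/
noncomputable def q0 (S : Finset (Fin n)) (t u : ℝ) : Co n Unit Unit → ℝ :=
  Sum.elim (Sum.elim (fun e => if e.1.1.1 ∈ S ∧ e.1.1.2 ∈ S then t else 0)
    fun e => if e.1 ∈ S then u else 0) fun _ => 0

theorem vf_one (hB : 0 < CB) (hF : 0 < CF) {t u : ℝ} (hs : Sh cB cF BL FL CB CF t u)
    (e : Co n Unit Unit) : vf (p0 n LB LF) (c0 n cB cF CB CF) e = 1 := by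
  unfold vf
  rcases e with (⟨q, l⟩ | ⟨i, l⟩) | j
  · rw [fib_bd]
    show ∑ l, (cB l / CB) ^ 2 = 1
    simp only [div_pow]
    rw [← Finset.sum_div, hs.totB, div_self (by positivity)]
  · rw [fib_fd]
    show ∑ l, (cF l / CF) ^ 2 = 1
    simp only [div_pow]
    rw [← Finset.sum_div, hs.totF, div_self (by positivity)]
  · rw [fib_gd]
    show (1 : ℝ) ^ 2 = 1
    norm_num

theorem vf_re (hB : 0 < CB) (hF : 0 < CF) {t u : ℝ} (hs : Sh cB cF BL FL CB CF t u)
    (e : Co n Unit Unit) :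
    vf (p0 n LB LF) (re (Kset S BL FL) (c0 n cB cF CB CF)) e = q0 S t u e := by
  unfold vf
  rcases e with (⟨q, l⟩ | ⟨i, l⟩) | j
  · rw [fib_bd]
    show ∑ l, (if bd LF q l ∈ Kset S BL FL then cB l / CB else 0) ^ 2 =
      if q.1.1 ∈ S ∧ q.1.2 ∈ S then t else 0
    simp only [bd_memK]
    by_cases hq : q.1.1 ∈ S ∧ q.1.2 ∈ S
    · simp only [hq, true_and, and_self, if_true]
      have h1 : ∀ l, (if l ∈ BL then cB l / CB else 0) ^ 2 =
          if l ∈ BL then cB l ^ 2 / CB ^ 2 else 0 := by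
        intro l
        split_ifs
        · rw [div_pow]
        · norm_num
      simp only [h1]
      rw [Finset.sum_ite_mem, Finset.univ_inter, ← Finset.sum_div, hs.shB,
        mul_div_cancel_right₀ _ (by positivity)]
    · simp only [hq, false_and, if_false]
      simp
  · rw [fib_fd]
    show ∑ l, (if fd LB i l ∈ Kset S BL FL then cF l / CF else 0) ^ 2 = if i ∈ S then u else 0
    simp only [fd_memK]
    by_cases hq : i ∈ S
    · simp only [hq, true_and, if_true]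
      have h1 : ∀ l, (if l ∈ FL then cF l / CF else 0) ^ 2 =
          if l ∈ FL then cF l ^ 2 / CF ^ 2 else 0 := by
        intro l
        split_ifs
        · rw [div_pow]
        · norm_num
      simp only [h1]
      rw [Finset.sum_ite_mem, Finset.univ_inter, ← Finset.sum_div, hs.shF,
        mul_div_cancel_right₀ _ (by positivity)]
    · simp only [hq, false_and, if_false]
      simp
  · rw [fib_gd]
    show (if gd LB LF j ∈ Kset S BL FL then (1 : ℝ) else 0) ^ 2 = 0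
    rw [if_neg (gd_memK j)]
    norm_num

/-- the fields of the sites of `S` -/
def AF (S : Finset (Fin n)) : Finset (Co n Unit Unit) := S.image fun i => fd Unit i ()

/-- the bonds inside `S` -/
def AB (S : Finset (Fin n)) : Finset (Co n Unit Unit) :=
  (Finset.univ.filter fun q : Pair n => q.1.1 ∈ S ∧ q.1.2 ∈ S).image fun q => bd Unit q ()

lemma sum_AF (S : Finset (Fin n)) (f : Co n Unit Unit → ℝ) :
    ∑ e ∈ AF S, f e = ∑ i ∈ S, f (fd Unit i ()) := by
  unfold AF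
  rw [Finset.sum_image]
  intro i _ j _ h
  simpa using h

lemma sum_AB (S : Finset (Fin n)) (f : Co n Unit Unit → ℝ) :
    ∑ e ∈ AB S, f e = ∑ q : Pair n with q.1.1 ∈ S ∧ q.1.2 ∈ S, f (bd Unit q ()) := by
  unfold AB
  rw [Finset.sum_image]
  intro i _ j _ h
  simpa using h

lemma fzF (hB : 0 < CB) (hF : 0 < CF) {t u : ℝ} (hs : Sh cB cF BL FL CB CF t u) :
    Fz (p0 n LB LF) (c0 n cB cF CB CF) (Kset S BL FL) (AF S) (q0 S t 0) u where
  one := vf_one hB hF hs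
  act e he := by
    obtain ⟨i, hi, rfl⟩ := Finset.mem_image.1 he
    rw [vf_re hB hF hs]
    show (if i ∈ S then u else 0) = u
    rw [if_pos hi]
  fro e he := by
    rw [vf_re hB hF hs]
    rcases e with (⟨q, l⟩ | ⟨i, l⟩) | j
    · rfl
    · have hi : i ∉ S := fun h => he (Finset.mem_image.2 ⟨i, h, rfl⟩)
      show (if i ∈ S then u else 0) = if i ∈ S then 0 else 0
      rw [if_neg hi, if_neg hi]
    · rfl

lemma fzB (hB : 0 < CB) (hF : 0 < CF) {t u : ℝ} (hs : Sh cB cF BL FL CB CF t u) :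
    Fz (p0 n LB LF) (c0 n cB cF CB CF) (Kset S BL FL) (AB S) (q0 S 0 u) t where
  one := vf_one hB hF hs
  act e he := by
    obtain ⟨q, hq, rfl⟩ := Finset.mem_image.1 he
    have hq' := (Finset.mem_filter.1 hq).2
    rw [vf_re hB hF hs]
    show (if q.1.1 ∈ S ∧ q.1.2 ∈ S then t else 0) = t
    rw [if_pos hq']
  fro e he := by
    rw [vf_re hB hF hs]
    rcases e with (⟨q, l⟩ | ⟨i, l⟩) | j
    · have hq : ¬ (q.1.1 ∈ S ∧ q.1.2 ∈ S) := fun h =>
        he (Finset.mem_image.2 ⟨q, Finset.mem_filter.2 ⟨Finset.mem_univ _, h⟩, rfl⟩)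
      show (if q.1.1 ∈ S ∧ q.1.2 ∈ S then t else 0) = if q.1.1 ∈ S ∧ q.1.2 ∈ S then 0 else 0
      rw [if_neg hq, if_neg hq]
    · rfl
    · rfl

/-! ### scaling of the observables -/

section scale

variable {κ Ω : Type} [Fintype κ] [DecidableEq κ] [MeasurableSpace Ω] {μ : Measure Ω}
  {S' : κ → Ω → ℝ} {M0 x : ℝ} {K : Finset κ}

lemma cg_mul (hG : GM μ S' M0) (x : ℝ) (K : Finset κ) (a : ℝ) (f : Ω → ℝ) (z : κ → ℝ) :
    cg μ S' x K (fun w => a * f w) z = a * cg μ S' x K f z := by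
  unfold cg
  have e1 : avm μ 1 S' (fun w => a * f w) = fun z => a * avm μ 1 S' f z := by
    funext z
    exact av_mul μ 1 S' a f z
  rw [e1]
  exact cx_const_mul (wt hG 1 x) a z

lemma kg_mul (hG : GM μ S' M0) (x : ℝ) (K : Finset κ) (a : ℝ) (f g : Ω → ℝ) (z : κ → ℝ) :
    kg μ S' x K (fun w => a * f w) (fun w => a * g w) z = a ^ 2 * kg μ S' x K f g z := by
  unfold kg
  have e1 : (fun w => a * f w * (a * g w)) = fun w => a ^ 2 * (f w * g w) := by
    funext w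
    ring
  rw [e1, cg_mul hG, cg_mul hG, cg_mul hG]
  ring

lemma eg_mul (x a : ℝ) (Ψ : (κ → ℝ) → ℝ) :
    eg μ S' x (fun z => a * Ψ z) = a * eg μ S' x Ψ := by
  unfold eg ex
  rw [← mul_div_assoc, ← integral_const_mul]
  congr 1
  refine integral_congr_ae (Filter.Eventually.of_forall fun z => ?_)
  simp only
  ring

end scale

variable {x M0 : ℝ} {μ : Measure (ℝ × Xs n)}

/-- **RANK ONE, window of the shares of the fields.** `CF²` is the variance of the plain fields. -/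
theorem rank_fields (hG : GM μ (Sb n b CB CF s η) M0) (hx : 0 ≤ x) (hx1 : x ≤ 1)
    (hB : 0 < CB) (hF : 0 < CF) (S : Finset (Fin n)) (t : ℝ) {s0 s1 : ℝ} (h0 : 0 ≤ s0)
    (h01 : s0 < s1) (h1 : s1 ≤ 1) :
    ∃ u ∈ Set.Icc s0 s1, ∀ (LB LF : Type) [Fintype LB] [DecidableEq LB] [Fintype LF]
      [DecidableEq LF] (cB : LB → ℝ) (cF : LF → ℝ) (BL : Finset LB) (FL : Finset LF) (M1 : ℝ)
      (LB' LF' : Type) [Fintype LB'] [DecidableEq LB'] [Fintype LF'] [DecidableEq LF']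
      (cB' : LB' → ℝ) (cF' : LF' → ℝ) (BL' : Finset LB') (FL' : Finset LF') (M2 : ℝ),
      GM μ (Sm b cB cF s η) M1 → GM μ (Sm b cB' cF' s η) M2 →
      Sh cB cF BL FL CB CF t u → Sh cB' cF' BL' FL' CB CF t s1 →
      x ^ 2 * ((s1 - s0) * (CF ^ 2 * eg μ (Sm b cB cF s η) x (fun z => ∑ i ∈ S, ∑ j ∈ S,
        kg μ (Sm b cB cF s η) x (Kset S BL FL) (fun w => sp w.2 i) (fun w => sp w.2 j) z ^ 2))) ≤
      eg μ (Sm b cB' cF' s η) x (fun z => ∑ i ∈ S,
        cg μ (Sm b cB' cF' s η) x (Kset S BL' FL') (fun w => sp w.2 i) z ^ 2) := by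
  obtain ⟨u, hu, hb⟩ := rank_one_gibbs hG (A0 := AF S) hx hx1 (Y := fun _ => 1) (EG.const 1)
    (fun _ => zero_le_one) (fun _ _ _ _ => rfl) (q0 S t 0) h0 h01 h1
  refine ⟨u, hu, fun LB LF _ _ _ _ cB cF BL FL M1 LB' LF' _ _ _ _ cB' cF' BL' FL' M2 hG1 hG2
    hs hs' => ?_⟩
  have h2 := hb (Co n LB LF) (p0 n LB LF) (c0 n cB cF CB CF) (Kset S BL FL) (Sm b cB cF s η)
    (Co n LB' LF') (p0 n LB' LF') (c0 n cB' cF' CB CF) (Kset S BL' FL') (Sm b cB' cF' s η)
    (lvl hB.ne' hF.ne') (lvl hB.ne' hF.ne') (fzF hB hF hs) (fzF hB hF hs')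
  have e0 : ∀ i : Fin n, Sb n b CB CF s η (fd Unit i ()) = fun w => CF * sp w.2 i := fun i => rfl
  simp only [sum_AF, one_mul, e0, kg_mul hG1, cg_mul hG2] at h2
  have e1 : (fun z : Co n LB LF → ℝ => ∑ i ∈ S, ∑ j ∈ S, (CF ^ 2 * kg μ (Sm b cB cF s η) x
      (Kset S BL FL) (fun w => sp w.2 i) (fun w => sp w.2 j) z) ^ 2) =
      fun z => CF ^ 2 * (CF ^ 2 * ∑ i ∈ S, ∑ j ∈ S, kg μ (Sm b cB cF s η) x
      (Kset S BL FL) (fun w => sp w.2 i) (fun w => sp w.2 j) z ^ 2) := by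
    funext z
    simp only [mul_pow, Finset.mul_sum]
    exact Finset.sum_congr rfl fun i _ => Finset.sum_congr rfl fun j _ => by ring
  have e2 : (fun z : Co n LB' LF' → ℝ => ∑ i ∈ S, (CF * cg μ (Sm b cB' cF' s η) x
      (Kset S BL' FL') (fun w => sp w.2 i) z) ^ 2) =
      fun z => CF ^ 2 * ∑ i ∈ S, cg μ (Sm b cB' cF' s η) x
      (Kset S BL' FL') (fun w => sp w.2 i) z ^ 2 := by
    funext z
    simp only [mul_pow, Finset.mul_sum]
  rw [e1, e2, eg_mul, eg_mul, eg_mul] at h2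
  have h3 : 0 < CF ^ 2 := by positivity
  refine le_of_mul_le_mul_left ?_ h3
  linarith

/-- **RANK ONE, window of the shares of the bonds.** `SkS q σ` is the product of the two spins of
the bond `q`. -/
theorem rank_bonds (hG : GM μ (Sb n b CB CF s η) M0) (hx : 0 ≤ x) (hx1 : x ≤ 1)
    (hn : 0 < n) (hb0 : 0 < b) (hB : 0 < CB) (hF : 0 < CF) (S : Finset (Fin n)) (u : ℝ)
    {s0 s1 : ℝ} (h0 : 0 ≤ s0) (h01 : s0 < s1) (h1 : s1 ≤ 1) :
    ∃ t ∈ Set.Icc s0 s1, ∀ (LB LF : Type) [Fintype LB] [DecidableEq LB] [Fintype LF]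
      [DecidableEq LF] (cB : LB → ℝ) (cF : LF → ℝ) (BL : Finset LB) (FL : Finset LF) (M1 : ℝ)
      (LB' LF' : Type) [Fintype LB'] [DecidableEq LB'] [Fintype LF'] [DecidableEq LF']
      (cB' : LB' → ℝ) (cF' : LF' → ℝ) (BL' : Finset LB') (FL' : Finset LF') (M2 : ℝ),
      GM μ (Sm b cB cF s η) M1 → GM μ (Sm b cB' cF' s η) M2 →
      Sh cB cF BL FL CB CF t u → Sh cB' cF' BL' FL' CB CF s1 u →
      x ^ 2 * ((s1 - s0) * ((b ^ 2 / n * CB ^ 2) * eg μ (Sm b cB cF s η) x (fun z =>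
        ∑ q : Pair n with q.1.1 ∈ S ∧ q.1.2 ∈ S, ∑ r : Pair n with r.1.1 ∈ S ∧ r.1.2 ∈ S,
        kg μ (Sm b cB cF s η) x (Kset S BL FL) (fun w => SkS q w.2) (fun w => SkS r w.2) z ^ 2)))
      ≤ eg μ (Sm b cB' cF' s η) x (fun z => ∑ q : Pair n with q.1.1 ∈ S ∧ q.1.2 ∈ S,
        cg μ (Sm b cB' cF' s η) x (Kset S BL' FL') (fun w => SkS q w.2) z ^ 2) := by
  obtain ⟨t, ht, hb⟩ := rank_one_gibbs hG (A0 := AB S) hx hx1 (Y := fun _ => 1) (EG.const 1)
    (fun _ => zero_le_one) (fun _ _ _ _ => rfl) (q0 S 0 u) h0 h01 h1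
  refine ⟨t, ht, fun LB LF _ _ _ _ cB cF BL FL M1 LB' LF' _ _ _ _ cB' cF' BL' FL' M2 hG1 hG2
    hs hs' => ?_⟩
  have h2 := hb (Co n LB LF) (p0 n LB LF) (c0 n cB cF CB CF) (Kset S BL FL) (Sm b cB cF s η)
    (Co n LB' LF') (p0 n LB' LF') (c0 n cB' cF' CB CF) (Kset S BL' FL') (Sm b cB' cF' s η)
    (lvl hB.ne' hF.ne') (lvl hB.ne' hF.ne') (fzB hB hF hs) (fzB hB hF hs')
  set a : ℝ := b / √n * CB with ha
  have ha2 : b ^ 2 / n * CB ^ 2 = a ^ 2 := by
    rw [ha, mul_pow, div_pow, Real.sq_sqrt (Nat.cast_nonneg n)]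
  have ha0 : 0 < a ^ 2 := by
    have : (0 : ℝ) < n := by exact_mod_cast hn
    rw [← ha2]
    positivity
  have e0 : ∀ q : Pair n, Sb n b CB CF s η (bd Unit q ()) = fun w => a * SkS q w.2 :=
    fun q => rfl
  simp only [sum_AB, one_mul, e0, kg_mul hG1, cg_mul hG2] at h2
  have e1 : (fun z : Co n LB LF → ℝ => ∑ q : Pair n with q.1.1 ∈ S ∧ q.1.2 ∈ S,
      ∑ r : Pair n with r.1.1 ∈ S ∧ r.1.2 ∈ S, (a ^ 2 * kg μ (Sm b cB cF s η) x
      (Kset S BL FL) (fun w => SkS q w.2) (fun w => SkS r w.2) z) ^ 2) =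
      fun z => a ^ 2 * (a ^ 2 * ∑ q : Pair n with q.1.1 ∈ S ∧ q.1.2 ∈ S,
      ∑ r : Pair n with r.1.1 ∈ S ∧ r.1.2 ∈ S, kg μ (Sm b cB cF s η) x
      (Kset S BL FL) (fun w => SkS q w.2) (fun w => SkS r w.2) z ^ 2) := by
    funext z
    simp only [mul_pow, Finset.mul_sum]
    exact Finset.sum_congr rfl fun i _ => Finset.sum_congr rfl fun j _ => by ring
  have e2 : (fun z : Co n LB' LF' → ℝ => ∑ q : Pair n with q.1.1 ∈ S ∧ q.1.2 ∈ S,
      (a * cg μ (Sm b cB' cF' s η) x (Kset S BL' FL') (fun w => SkS q w.2) z) ^ 2) =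
      fun z => a ^ 2 * ∑ q : Pair n with q.1.1 ∈ S ∧ q.1.2 ∈ S, cg μ (Sm b cB' cF' s η) x
      (Kset S BL' FL') (fun w => SkS q w.2) z ^ 2 := by
    funext z
    simp only [mul_pow, Finset.mul_sum]
  rw [e1, e2, eg_mul, eg_mul, eg_mul] at h2
  rw [ha2]
  refine le_of_mul_le_mul_left ?_ ha0
  linarith

end Vale.Agent.P146.H246
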