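import Vale.Agent.P146.H246.Transfer

/-!
Rank one given the frozen coordinates, for systems of coordinates with levels, in the language
`cx`/`ex` of `H646.Blk`.
-/

open MeasureTheory ProbabilityTheory

namespace Vale.Agent.P146.H246

open Vale.Agent.P157.Lv Vale.Agent.P146.H425 Vale.Agent.P146.H332 Vale.Agent.P146.H646
open Vale.Agent.P146.H325 (Tc)
open Vale.Agent.P146.H118 (sm kt Kq QqF Ps cm zd eg_sm)

set_option linter.unusedSectionVars false

variable {κ ι : Type} [Fintype κ] [DecidableEq κ] [Fintype ι] [DecidableEq ι]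
variable {p : κ → ι} {c : κ → ℝ} {K : Finset κ} {A0 : Finset ι} {q0 : ι → ℝ} {s : ℝ}
variable {F : (ι → ℝ) → ℝ} {D : ι → (ι → ℝ) → ℝ} {B L x M : ℝ} {H T : ι → ι → (ι → ℝ) → ℝ}
variable {Y : (ι → ℝ) → ℝ}

/-- the conditional mean in the level system -/
noncomputable def cl (p : κ → ι) (c : κ → ℝ) (K : Finset κ) (x : ℝ) (F φ : (ι → ℝ) → ℝ)
    (z : κ → ℝ) : ℝ :=
  cx (fun _ : κ => gaussianReal 0 1) K (fun z => Real.exp (x * F (lf p c z)))
    (fun z => φ (lf p c z)) z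

/-- the mean in the level system -/
noncomputable def el (p : κ → ι) (c : κ → ℝ) (x : ℝ) (F : (ι → ℝ) → ℝ) (Ψ : (κ → ℝ) → ℝ) : ℝ :=
  ex (fun _ : κ => gaussianReal 0 1) (fun z => Real.exp (x * F (lf p c z))) Ψ

lemma cl_eq (h : C11 F D B L) {φ : (ι → ℝ) → ℝ} (hφ : Measurable φ) (z : κ → ℝ) :
    cl p c K x F φ z = cT (vf p (co K c)) (We x F) φ (lf p (re K c) z) :=
  cx_T (eg_We h x).meas hφ z

/-- the total mass -/
noncomputable def Z0 (x : ℝ) (F : (ι → ℝ) → ℝ) : ℝ := ∫ y, Real.exp (x * F y) ∂(gI ι)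

lemma Z0_pos (h : C11 F D B L) (x : ℝ) : 0 < Z0 x F := integral_exp_pos (h.eg_exp x).integrable

/-- the mean of a function of the position -/
theorem el_eq (h : C11 F D B L) (hz : Fz p c K A0 q0 s) {Φ : (ι → ℝ) → ℝ} (hΦ : EG Φ) :
    el p c x F (fun z => Φ (lf p (re K c) z)) =
      (∫ v, zd A0 (fun e => √(q0 e)) 0 (fun e => √(1 - q0 e)) x F s v *
        Φ (fun e => √(vf p (re K c) e) * v (Sum.inl e)) ∂(gI (ι ⊕ ι))) / Z0 x F := by
  unfold el ex
  congr 1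
  · exact hz.int_eq (eg_We h x) hΦ
  · exact int_We h x hz.one

/-- `kt` in the level system -/
noncomputable def kl (p : κ → ι) (c : κ → ℝ) (K : Finset κ) (x : ℝ) (F : (ι → ℝ) → ℝ)
    (D : ι → (ι → ℝ) → ℝ) (H : ι → ι → (ι → ℝ) → ℝ) (k e : ι) (z : κ → ℝ) : ℝ :=
  cl p c K x F (sm D H k e) z - cl p c K x F (D k) z * cl p c K x F (D e) z

/-- `kt` as a function of the position -/
noncomputable def kT (r : ι → ℝ) (x : ℝ) (F : (ι → ℝ) → ℝ) (D : ι → (ι → ℝ) → ℝ)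
    (H : ι → ι → (ι → ℝ) → ℝ) (k e : ι) (y : ι → ℝ) : ℝ :=
  cT r (We x F) (sm D H k e) y - cT r (We x F) (D k) y * cT r (We x F) (D e) y

lemma bd_sm (h : R1.Sm F D B L H T M) (k e : ι) (y : ι → ℝ) : |sm D H k e y| ≤ M + B * B := by
  unfold sm
  refine (abs_add_le _ _).trans (add_le_add (h.bH k e y) ?_)
  rw [abs_mul]
  exact mul_le_mul (h.c11.bd k y) (h.c11.bd e y) (abs_nonneg _) h.c11.B0

lemma kl_eq (h : R1.Sm F D B L H T M) (k e : ι) (z : κ → ℝ) :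
    kl p c K x F D H k e z = kT (vf p (co K c)) x F D H k e (lf p (re K c) z) := by
  unfold kl kT
  rw [cl_eq h.c11 (eg_sm h k e).meas, cl_eq h.c11 (h.eD k).meas, cl_eq h.c11 (h.eD e).meas]

lemma eg_kT (h : R1.Sm F D B L H T M) (r : ι → ℝ) (k e : ι) : EG (kT r x F D H k e) :=
  (eg_cT h.c11 (eg_sm h k e) (bd_sm h k e) r).sub
    ((eg_cT h.c11 (h.eD k) (h.c11.bd k) r).mul (eg_cT h.c11 (h.eD e) (h.c11.bd e) r))

variable (hz : Fz p c K A0 q0 s)
include hz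

lemma Fz.cT_pos (x : ℝ) (F φ : (ι → ℝ) → ℝ) (v : ι ⊕ ι → ℝ) :
    cT (vf p (co K c)) (We x F) φ (fun e => √(vf p (re K c) e) * v (Sum.inl e)) =
      cm A0 (fun e => √(q0 e)) 0 (fun e => √(1 - q0 e)) x F φ s v :=
  (cm_eq_cT hz.act hz.co_act hz.fro hz.co_fro x F φ v).symm

lemma Fz.kT_pos (v : ι ⊕ ι → ℝ) (k e : ι) :
    kT (vf p (co K c)) x F D H k e (fun e => √(vf p (re K c) e) * v (Sum.inl e)) =
      kt A0 (fun e => √(q0 e)) 0 (fun e => √(1 - q0 e)) x F D H k e s v := by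
  unfold kT kt
  rw [hz.cT_pos, hz.cT_pos, hz.cT_pos]

/-- the weight of the frozen coordinates -/
lemma Fz.Y_pos (hY : ∀ e ∈ A0, ∀ y t, Y (Function.update y e t) = Y y) (v : ι ⊕ ι → ℝ) :
    Y (fun e => √(vf p (re K c) e) * v (Sum.inl e)) = Y (fun e => √(q0 e) * v (Sum.inl e)) := by
  have h1 := mg_indep (A := A0) (φ := Y) hY (fun e => √(q0 e) * v (Sum.inl e))
    (fun e => √(vf p (re K c) e) * v (Sum.inl e))
  rw [← h1]
  congr 1
  funext e
  unfold mg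
  by_cases he : e ∈ A0
  · rw [if_pos he]
  · rw [if_neg he, hz.fro e he]

/-- **The mean of `∑ kt²` in the level system.** -/
theorem ex_kt (h : R1.Sm F D B L H T M) (hYe : EG Y)
    (hY : ∀ e ∈ A0, ∀ y t, Y (Function.update y e t) = Y y) :
    el p c x F (fun z => Y (lf p (re K c) z) *
        ∑ k ∈ A0, ∑ e ∈ A0, kl p c K x F D H k e z ^ 2) =
      Kq A0 (fun e => √(q0 e)) 0 (fun e => √(1 - q0 e)) x F D H
        (fun v => Y (fun e => √(q0 e) * v (Sum.inl e))) s / Z0 x F := by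
  have e1 : (fun z => Y (lf p (re K c) z) * ∑ k ∈ A0, ∑ e ∈ A0, kl p c K x F D H k e z ^ 2) =
      fun z => (fun y => Y y * ∑ k ∈ A0, ∑ e ∈ A0, kT (vf p (co K c)) x F D H k e y ^ 2)
        (lf p (re K c) z) := by
    funext z
    simp only [kl_eq h]
  have hΦ : EG fun y => Y y * ∑ k ∈ A0, ∑ e ∈ A0, kT (vf p (co K c)) x F D H k e y ^ 2 :=
    hYe.mul (EG.sum _ fun k _ => EG.sum _ fun e _ => (eg_kT h _ k e).pow 2)
  rw [e1, el_eq h.c11 hz hΦ]
  congr 1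
  unfold Kq
  refine integral_congr_ae (Filter.Eventually.of_forall fun v => ?_)
  simp only
  rw [hz.Y_pos hY]
  simp only [hz.kT_pos]

/-- **The mean of `∑ (cm D)²` in the level system.** -/
theorem ex_qq (h : R1.Sm F D B L H T M) (hYe : EG Y)
    (hY : ∀ e ∈ A0, ∀ y t, Y (Function.update y e t) = Y y) :
    el p c x F (fun z => Y (lf p (re K c) z) * ∑ k ∈ A0, cl p c K x F (D k) z ^ 2) =
      QqF A0 (fun e => √(q0 e)) 0 (fun e => √(1 - q0 e)) x F D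
        (fun v => Y (fun e => √(q0 e) * v (Sum.inl e))) s / Z0 x F := by
  have e1 : (fun z => Y (lf p (re K c) z) * ∑ k ∈ A0, cl p c K x F (D k) z ^ 2) =
      fun z => (fun y => Y y * ∑ k ∈ A0, cT (vf p (co K c)) (We x F) (D k) y ^ 2)
        (lf p (re K c) z) := by
    funext z
    simp only [cl_eq h.c11 (h.eD _).meas]
  have hΦ : EG fun y => Y y * ∑ k ∈ A0, cT (vf p (co K c)) (We x F) (D k) y ^ 2 :=
    hYe.mul (EG.sum _ fun k _ => (eg_cT h.c11 (h.eD k) (h.c11.bd k) _).pow 2)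
  rw [e1, el_eq h.c11 hz hΦ]
  congr 1
  unfold QqF
  refine integral_congr_ae (Filter.Eventually.of_forall fun v => ?_)
  simp only
  rw [hz.Y_pos hY]
  simp only [hz.cT_pos]

omit hz

lemma eg_Yv (hYe : EG Y) (q0 : ι → ℝ) :
    EG fun v : ι ⊕ ι → ℝ => Y (fun e => √(q0 e) * v (Sum.inl e)) := by
  have h1 := H325.EG.aff hYe 0 (fun e => √(q0 e))
  simp only [Pi.zero_apply, zero_add] at h1
  exact eg_inl h1

lemma Y_upd (hY : ∀ e ∈ A0, ∀ y t, Y (Function.update y e t) = Y y) (q0 : ι → ℝ) (e : ι)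
    (he : e ∈ A0) (w : ι ⊕ ι → ℝ) (t : ℝ) :
    Y (fun e' => √(q0 e') * Function.update w (Sum.inl e) t (Sum.inl e')) =
      Y (fun e' => √(q0 e') * w (Sum.inl e')) := by
  have e1 : (fun e' => √(q0 e') * Function.update w (Sum.inl e) t (Sum.inl e')) =
      Function.update (fun e' => √(q0 e') * w (Sum.inl e')) e (√(q0 e) * t) := by
    funext e'
    by_cases h2 : e' = e
    · subst h2
      simp
    · have h3 : (Sum.inl e' : ι ⊕ ι) ≠ Sum.inl e := fun h4 => h2 (Sum.inl.inj h4)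
      rw [Function.update_of_ne h3, Function.update_of_ne h2]
  rw [e1]
  exact hY e he _ _

/-- **RANK ONE in level systems.** There is a share `s` of the window such that the bound holds for
every level system with the frozen share `s` on `A0`; the right-hand side is the mean at the share
`s1`. -/
theorem rank_one_ex (h : R1.Sm F D B L H T M) (hp : Ps A0 H) (hx : 0 ≤ x) (hx1 : x ≤ 1)
    (hYe : EG Y) (hY0 : ∀ y, 0 ≤ Y y)
    (hY : ∀ e ∈ A0, ∀ y t, Y (Function.update y e t) = Y y) (q0 : ι → ℝ)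
    {s0 s1 : ℝ} (h0 : 0 ≤ s0) (h01 : s0 < s1) (h1 : s1 ≤ 1) :
    ∃ s ∈ Set.Icc s0 s1, ∀ (κ : Type) [Fintype κ] [DecidableEq κ] (p : κ → ι) (c : κ → ℝ)
      (K : Finset κ) (κ' : Type) [Fintype κ'] [DecidableEq κ'] (p' : κ' → ι) (c' : κ' → ℝ)
      (K' : Finset κ'), Fz p c K A0 q0 s → Fz p' c' K' A0 q0 s1 →
      x ^ 2 * ((s1 - s0) * el p c x F (fun z => Y (lf p (re K c) z) *
        ∑ k ∈ A0, ∑ e ∈ A0, kl p c K x F D H k e z ^ 2)) ≤
      el p' c' x F (fun z => Y (lf p' (re K' c') z) *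
        ∑ k ∈ A0, cl p' c' K' x F (D k) z ^ 2) := by
  obtain ⟨s, hs, hb⟩ := H118.rank_one h hp hx hx1 (fun e => √(q0 e)) 0 (fun e => √(1 - q0 e))
    (eg_Yv hYe q0) (fun v => hY0 _) (Y_upd hY q0) h0 h01 h1
  refine ⟨s, hs, fun κ _ _ p c K κ' _ _ p' c' K' hz hz' => ?_⟩
  rw [ex_kt hz h hYe hY, ex_qq hz' h hYe hY]
  rw [← mul_div_assoc, ← mul_div_assoc]
  exact div_le_div_of_nonneg_right hb (Z0_pos h.c11 x).le

end Vale.Agent.P146.H246
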