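import Vale.Agent.P146.H246.RankEx
import Vale.Agent.P146.H196.Gibm

/-!
Rank one for Gibbs systems with levels: if the energies are `S' j = c j * S (p j)`, then the
logarithm of the partition function and the Gibbs averages of the level system are the ones of the
basic system at the sums over the levels.
-/

open MeasureTheory ProbabilityTheory

namespace Vale.Agent.P146.H246

open Vale.Agent.P157.Lv Vale.Agent.P146.H425 Vale.Agent.P146.H332 Vale.Agent.P146.H646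
open Vale.Agent.P146.H196
open Vale.Agent.P146.H118 (sm Ps)

set_option linter.unusedSectionVars false

variable {κ ι : Type} [Fintype κ] [DecidableEq κ] [Fintype ι] [DecidableEq ι]
variable {Ω : Type} [MeasurableSpace Ω] {μ : Measure Ω} {M0 x : ℝ} {S : ι → Ω → ℝ}
variable {S' : κ → Ω → ℝ} {p : κ → ι} {c : κ → ℝ} {K : Finset κ}

/-- `S'` are the energies of the level system over `S` -/
def Lvl (p : κ → ι) (c : κ → ℝ) (S : ι → Ω → ℝ) (S' : κ → Ω → ℝ) : Prop :=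
  ∀ j w, S' j w = c j * S (p j) w

lemma ezm_lv (h : Lvl p c S S') (k : ℝ) (z : κ → ℝ) (w : Ω) :
    ezm k S' z w = ezm k S (lf p c z) w := by
  unfold ezm
  congr 2
  unfold lf
  rw [sum_fib p (fun e => S e w) fun j => c j * z j]
  refine Finset.sum_congr rfl fun j _ => ?_
  rw [h j w]
  ring

lemma Zm_lv (h : Lvl p c S S') (k : ℝ) (z : κ → ℝ) : Zm μ k S' z = Zm μ k S (lf p c z) := by
  unfold Zm
  simp only [ezm_lv h]

lemma av_lv (h : Lvl p c S S') (k : ℝ) (f : Ω → ℝ) (z : κ → ℝ) :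
    avm μ k S' f z = avm μ k S f (lf p c z) := by
  unfold avm
  simp only [ezm_lv h, Zm_lv h]

lemma lz_lv (h : Lvl p c S S') (k : ℝ) (z : κ → ℝ) : lzm μ k S' z = lzm μ k S (lf p c z) := by
  unfold lzm
  rw [Zm_lv h]

lemma Zx_lv (h : Lvl p c S S') (k x : ℝ) (z : κ → ℝ) :
    Zxm μ k S' x z = Zxm μ k S x (lf p c z) := by
  unfold Zxm
  rw [lz_lv h]

/-- the conditional mean of a Gibbs average -/
noncomputable def cg (μ : Measure Ω) (S' : κ → Ω → ℝ) (x : ℝ) (K : Finset κ) (f : Ω → ℝ)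
    (z : κ → ℝ) : ℝ :=
  cx (fun _ : κ => gaussianReal 0 1) K (Zxm μ 1 S' x) (avm μ 1 S' f) z

/-- the mean -/
noncomputable def eg (μ : Measure Ω) (S' : κ → Ω → ℝ) (x : ℝ) (Ψ : (κ → ℝ) → ℝ) : ℝ :=
  ex (fun _ : κ => gaussianReal 0 1) (Zxm μ 1 S' x) Ψ

lemma cl_av (h : Lvl p c S S') (K : Finset κ) (x : ℝ) (f : Ω → ℝ) (z : κ → ℝ) :
    cl p c K x (lzm μ 1 S) (avm μ 1 S f) z = cg μ S' x K f z := by
  unfold cl cg
  have e1 : (fun z : κ → ℝ => Real.exp (x * lzm μ 1 S (lf p c z))) = Zxm μ 1 S' x := by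
    funext z
    rw [Zx_lv h]
    rfl
  have e2 : (fun z : κ → ℝ => avm μ 1 S f (lf p c z)) = avm μ 1 S' f := by
    funext z
    rw [av_lv h]
  rw [e1, e2]

lemma el_av (h : Lvl p c S S') (x : ℝ) (Ψ : (κ → ℝ) → ℝ) :
    el p c x (lzm μ 1 S) Ψ = eg μ S' x Ψ := by
  unfold el eg
  have e1 : (fun z : κ → ℝ => Real.exp (x * lzm μ 1 S (lf p c z))) = Zxm μ 1 S' x := by
    funext z
    rw [Zx_lv h]
    rfl
  rw [e1]

lemma Dm_one (S : ι → Ω → ℝ) (e : ι) : Dm μ 1 S e = avm μ 1 S (S e) := by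
  funext u
  unfold Dm
  rw [one_mul]

lemma sm_one (S : ι → Ω → ℝ) (e i : ι) :
    sm (Dm μ 1 S) (Hm μ 1 S) e i = avm μ 1 S (fun w => S e w * S i w) := by
  funext u
  unfold sm Dm Hm
  ring

/-- the covariance given the frozen coordinates -/
noncomputable def kg (μ : Measure Ω) (S' : κ → Ω → ℝ) (x : ℝ) (K : Finset κ) (f g : Ω → ℝ)
    (z : κ → ℝ) : ℝ :=
  cg μ S' x K (fun w => f w * g w) z - cg μ S' x K f z * cg μ S' x K g z

lemma kl_av (h : Lvl p c S S') (K : Finset κ) (x : ℝ) (e i : ι) (z : κ → ℝ) :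
    kl p c K x (lzm μ 1 S) (Dm μ 1 S) (Hm μ 1 S) e i z = kg μ S' x K (S e) (S i) z := by
  unfold kl kg
  rw [sm_one, Dm_one, Dm_one, cl_av h, cl_av h, cl_av h]

/-- **RANK ONE for Gibbs systems with levels.** There is a share `s` in the window such that, for
every level system with the frozen share `s` on `A0` and every one with the frozen share `s1`, the
mean of the squared covariances given the frozen coordinates is at most the mean of the squared
conditional means, divided by `x² (s1 - s0)`. -/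
theorem rank_one_gibbs (hG : GM μ S M0) {A0 : Finset ι} (hx : 0 ≤ x) (hx1 : x ≤ 1)
    {Y : (ι → ℝ) → ℝ} (hYe : EG Y) (hY0 : ∀ y, 0 ≤ Y y)
    (hY : ∀ e ∈ A0, ∀ y t, Y (Function.update y e t) = Y y) (q0 : ι → ℝ)
    {s0 s1 : ℝ} (h0 : 0 ≤ s0) (h01 : s0 < s1) (h1 : s1 ≤ 1) :
    ∃ s ∈ Set.Icc s0 s1, ∀ (κ : Type) [Fintype κ] [DecidableEq κ] (p : κ → ι) (c : κ → ℝ)
      (K : Finset κ) (S1 : κ → Ω → ℝ) (κ' : Type) [Fintype κ'] [DecidableEq κ'] (p' : κ' → ι)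
      (c' : κ' → ℝ) (K' : Finset κ') (S2 : κ' → Ω → ℝ), Lvl p c S S1 → Lvl p' c' S S2 →
      Fz p c K A0 q0 s → Fz p' c' K' A0 q0 s1 →
      x ^ 2 * ((s1 - s0) * eg μ S1 x (fun z => Y (lf p (re K c) z) *
        ∑ e ∈ A0, ∑ i ∈ A0, kg μ S1 x K (S e) (S i) z ^ 2)) ≤
      eg μ S2 x (fun z => Y (lf p' (re K' c') z) * ∑ e ∈ A0, cg μ S2 x K' (S e) z ^ 2) := by
  obtain ⟨s, hs, hb⟩ := rank_one_ex (hG.sm 1) (H118.ps_of_cv (hG.sm 1) (hG.cv 1) A0) hx hx1
    hYe hY0 hY q0 h0 h01 h1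
  refine ⟨s, hs, fun κ _ _ p c K S1 κ' _ _ p' c' K' S2 hl hl' hz hz' => ?_⟩
  have h2 := hb κ p c K κ' p' c' K' hz hz'
  rw [el_av hl, el_av hl'] at h2
  simp only [kl_av hl, Dm_one, cl_av hl'] at h2
  exact h2

end Vale.Agent.P146.H246
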