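import Vale.Agent.P146.H425.Gauss

/-!
Sums of independent standard Gaussians over the fibres of a map: the law of
`e ↦ ∑ j with p j = e, c j * z j` is the law of `e ↦ √(∑ j with p j = e, c j ^ 2) * y e`.
-/

open MeasureTheory ProbabilityTheory

namespace Vale.Agent.P146.H246

open Vale.Agent.P157.Lv

variable {κ ι : Type} [Fintype κ] [Fintype ι] [DecidableEq ι]

/-- the characteristic function of the standard Gaussian measure -/
lemma char_gI (b : κ → ℝ) :
    ∫ z, Complex.exp (((∑ j, b j * z j : ℝ) : ℂ) * Complex.I) ∂(gI κ) =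
      Complex.exp (((-(∑ j, b j ^ 2) / 2 : ℝ) : ℂ)) := by
  have h1 : ∀ z : κ → ℝ, Complex.exp (((∑ j, b j * z j : ℝ) : ℂ) * Complex.I) =
      ∏ j, Complex.exp ((b j : ℂ) * (z j : ℂ) * Complex.I) := by
    intro z
    rw [← Complex.exp_sum]
    congr 1
    push_cast
    rw [Finset.sum_mul]
  simp only [h1]
  rw [integral_fintype_prod_eq_prod (𝕜 := ℂ) (μ := fun _ : κ => gaussianReal 0 1)
    (f := fun j (t : ℝ) => Complex.exp ((b j : ℂ) * (t : ℂ) * Complex.I))]
  have h2 : ∀ j, ∫ t : ℝ, Complex.exp ((b j : ℂ) * (t : ℂ) * Complex.I) ∂(gaussianReal 0 1) =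
      Complex.exp (((-(b j ^ 2) / 2 : ℝ) : ℂ)) := by
    intro j
    rw [← charFun_apply_real, charFun_gaussianReal]
    congr 1
    push_cast
    simp
    ring
  simp only [h2]
  rw [← Complex.exp_sum]
  congr 1
  push_cast
  rw [← Finset.sum_div, ← Finset.sum_neg_distrib]

/-- the sums over the fibres -/
def lf (p : κ → ι) (c : κ → ℝ) (z : κ → ℝ) : ι → ℝ := fun e => ∑ j with p j = e, c j * z j

/-- the variances of the sums over the fibres -/
def vf (p : κ → ι) (c : κ → ℝ) : ι → ℝ := fun e => ∑ j with p j = e, c j ^ 2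

lemma vf_nonneg (p : κ → ι) (c : κ → ℝ) (e : ι) : 0 ≤ vf p c e :=
  Finset.sum_nonneg fun _ _ => sq_nonneg _

lemma measurable_lf (p : κ → ι) (c : κ → ℝ) : Measurable (lf p c) := by
  refine measurable_pi_lambda _ fun e => ?_
  unfold lf
  fun_prop

lemma sum_fib (p : κ → ι) (a : ι → ℝ) (f : κ → ℝ) :
    ∑ e, a e * ∑ j with p j = e, f j = ∑ j, a (p j) * f j := by
  rw [← Finset.sum_fiberwise_of_maps_to (s := Finset.univ) (t := Finset.univ) (g := p)
    (fun _ _ => Finset.mem_univ _)]
  refine Finset.sum_congr rfl fun e _ => ?_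
  rw [Finset.mul_sum]
  refine Finset.sum_congr rfl fun j hj => ?_
  rw [(Finset.mem_filter.1 hj).2]

theorem law_lf (p : κ → ι) (c : κ → ℝ) :
    (gI κ).map (lf p c) = (gI ι).map (fun y e => √(vf p c e) * y e) := by
  have m1 := measurable_lf p c
  have m2 : Measurable (fun (y : ι → ℝ) (e : ι) => √(vf p c e) * y e) := by fun_prop
  haveI : IsProbabilityMeasure ((gI κ).map (lf p c)) :=
    Measure.isProbabilityMeasure_map m1.aemeasurable
  haveI : IsProbabilityMeasure ((gI ι).map (fun (y : ι → ℝ) (e : ι) => √(vf p c e) * y e)) :=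
    Measure.isProbabilityMeasure_map m2.aemeasurable
  refine Measure.ext_of_charFunDual ?_
  funext L
  set a : ι → ℝ := fun e => L (Pi.single e 1) with ha
  have hL : ∀ y : ι → ℝ, L y = ∑ e, a e * y e := by
    intro y
    conv_lhs => rw [← Finset.univ_sum_single y]
    rw [map_sum]
    refine Finset.sum_congr rfl fun e _ => ?_
    have h1 : (Pi.single e (y e) : ι → ℝ) = y e • (Pi.single e (1 : ℝ) : ι → ℝ) := by
      rw [← Pi.single_smul]
      simp
    rw [h1, map_smul, smul_eq_mul, mul_comm]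
  have hcont : Continuous fun y : ι → ℝ => Complex.exp ((L y : ℂ) * Complex.I) := by fun_prop
  rw [charFunDual_apply, charFunDual_apply,
    integral_map m1.aemeasurable hcont.aestronglyMeasurable,
    integral_map m2.aemeasurable hcont.aestronglyMeasurable]
  have e1 : ∀ z : κ → ℝ, L (lf p c z) = ∑ j, a (p j) * c j * z j := by
    intro z
    rw [hL]
    unfold lf
    rw [sum_fib p a fun j => c j * z j]
    exact Finset.sum_congr rfl fun j _ => by ring
  have e2 : ∀ y : ι → ℝ, L (fun e => √(vf p c e) * y e) = ∑ e, a e * √(vf p c e) * y e := by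
    intro y
    rw [hL]
    exact Finset.sum_congr rfl fun j _ => by ring
  simp only [e1, e2]
  rw [char_gI, char_gI]
  congr 3
  have e3 : ∀ e, (a e * √(vf p c e)) ^ 2 = a e ^ 2 * ∑ j with p j = e, c j ^ 2 := by
    intro e
    rw [mul_pow, Real.sq_sqrt (vf_nonneg p c e)]
    rfl
  simp only [e3]
  rw [sum_fib p (fun e => a e ^ 2) fun j => c j ^ 2]
  exact congrArg Neg.neg (Finset.sum_congr rfl fun j _ => by ring)

/-- integrals of functions of the sums over the fibres -/
theorem int_lf (p : κ → ι) (c : κ → ℝ) {G : (ι → ℝ) → ℝ} (hG : Measurable G) :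
    ∫ z, G (lf p c z) ∂(gI κ) = ∫ y, G (fun e => √(vf p c e) * y e) ∂(gI ι) := by
  have m2 : Measurable (fun (y : ι → ℝ) (e : ι) => √(vf p c e) * y e) := by fun_prop
  rw [← integral_map (measurable_lf p c).aemeasurable hG.aestronglyMeasurable, law_lf,
    integral_map m2.aemeasurable hG.aestronglyMeasurable]

end Vale.Agent.P146.H246
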