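import Vale.Agent.P146.H246.Mc7

/-!
Maximal correlation of two functions of nearly one Gaussian variable: the theorem.
-/

open MeasureTheory ProbabilityTheory Filter Topology

namespace Vale.Agent.P146.H246.Mc

open Vale.Agent.P157.Lv Vale.Agent.P146.H329

set_option linter.unusedSectionVars false

variable {ι : Type} [Fintype ι] [DecidableEq ι]

/-- Maximal correlation, linear form. -/
theorem mc_lin {x Λ : ℝ} {W N1 N2 : (ι → ℝ) → ℝ} {u n1 n2 : ι → (ι → ℝ) → ℝ}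
    (D : Dat x Λ W N1 N2 u n1 n2) (hx : 0 ≤ x) (hΛ : 1 ≤ Λ) (hxΛ : 64 * (x * Λ ^ 2) ≤ 1)
    {U1 U2 : (ι → ℝ) → ℝ} (eU1 : EG U1) (eU2 : EG U2) (bU1 : ∀ z, |U1 z| ≤ 4)
    {a1 a2 : ι → ℝ} {s1 s2 c η ν : ℝ} (hs1 : ∑ e, a1 e ^ 2 = s1) (h1 : 0 < s1)
    (h1Λ : s1 ≤ Λ ^ 2) (hs2 : ∑ e, a2 e ^ 2 = s2) (hc : ∑ e, a1 e * a2 e = c)
    (hη : 0 ≤ η) (hη1 : η ≤ 1)
    (E1 : ∫ z, W z * ∑ e, (u e z - N1 z * a1 e) ^ 2 ∂(gI ι) ≤ η ^ 2)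
    (E2 : ∫ z, W z * ∑ e, (n1 e z - U1 z * a1 e) ^ 2 ∂(gI ι) ≤ η ^ 2)
    (E3 : ∫ z, W z * ∑ e, (n2 e z - U2 z * a2 e) ^ 2 ∂(gI ι) ≤ η ^ 2)
    (hν : ∀ l : ℝ, ν ≤ ∫ z, W z * (N1 z - l * ∑ e, a1 e * z e) ^ 2 ∂(gI ι))
    (hC : 4800 * (x * s1 ^ 2) ≤ ν) (α : ℝ) :
    2 * α * (s2 * ∫ z, W z * (N1 z * N2 z) ∂(gI ι)) ≤
      c ^ 2 / s1 * ∫ z, W z * N2 z ^ 2 ∂(gI ι) +
      α ^ 2 * (s2 * ∫ z, W z * N1 z ^ 2 ∂(gI ι)) + (46 * |α| + 151 * α ^ 2) * (s2 * η) := by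
  have hA := a1_le D hx hΛ hxΛ eU1 bU1 E2
  obtain ⟨σ, hσd⟩ : ∃ σ, σ = √s1 := ⟨_, rfl⟩
  have hσ : 0 < σ := by rw [hσd]; exact Real.sqrt_pos.2 h1
  have hσ2 : σ ^ 2 = s1 := by rw [hσd]; exact Real.sq_sqrt h1.le
  have hσΛ : σ ≤ Λ := by
    rw [hσd, Real.sqrt_le_left (by linarith)]
    exact h1Λ
  obtain ⟨v, hva⟩ : ∃ v : ι → ℝ, ∀ e, a1 e = σ * v e :=
    ⟨fun e => a1 e / σ, fun e => by field_simp⟩
  have hv : ∑ i, v i ^ 2 = 1 := by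
    have h2 : σ ^ 2 * ∑ i, v i ^ 2 = σ ^ 2 := by
      have h4 : σ ^ 2 * ∑ i, v i ^ 2 = ∑ e, a1 e ^ 2 := by
        rw [Finset.mul_sum]
        exact Finset.sum_congr rfl fun i _ => by rw [hva]; ring
      rw [h4, hs1, hσ2]
    have h3 : σ ^ 2 ≠ 0 := by positivity
    exact mul_left_cancel₀ h3 (by rw [h2, mul_one])
  have E1' := E1
  have E2' := E2
  simp only [hva] at E1' E2'
  have hx1 := (x_le hx hΛ hxΛ).1
  obtain ⟨F, cF, oF, bF, dF⟩ := exF D (by linarith) hx (by linarith) hv eU1 E1' E2'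
  have hxσ : x * σ ≤ 1 / 64 :=
    (mul_le_mul_of_nonneg_left hσΛ hx).trans (x_le hx hΛ hxΛ).2.1
  obtain ⟨k, dk, bk⟩ := kk cF oF bF (mul_nonneg hx hσ.le) (by linarith : x * σ ≤ 1 / 8)
  have Q : Fr x Λ η σ W N1 N2 u n1 n2 v U1 F k :=
    ⟨D, hx, hΛ, hxΛ, hη, hη1, hv, hσ.le, hσΛ, eU1, bU1, E1', E2', cF, bF,
      dF.trans (le_of_eq (by ring)), dk, bk⟩
  have hν0 : 0 ≤ ν := le_trans (by positivity) hC
  have hν' : ∀ l : ℝ, ν ≤ ∫ z, W z * (N1 z - l * dv v z) ^ 2 ∂(gI ι) := by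
    intro l
    refine (hν (l / σ)).trans (le_of_eq ?_)
    congr 1
    funext z
    congr 3
    have : ∑ e, a1 e * z e = σ * dv v z := by
      unfold dv
      rw [Finset.mul_sum]
      exact Finset.sum_congr rfl fun e _ => by rw [hva]; ring
    rw [this]
    field_simp
  have hA0 : 0 ≤ ∫ z, W z * N1 z ^ 2 ∂(gI ι) :=
    integral_nonneg fun z => mul_nonneg (D.pos z).le (sq_nonneg _)
  have hcond : 60 * (x * σ ^ 2 * ∫ z, W z * N1 z ^ 2 ∂(gI ι)) ≤ ν + 6 * η := by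
    rw [hσ2]
    rw [hs1] at hA
    have h2 : x * s1 * ∫ z, W z * N1 z ^ 2 ∂(gI ι) ≤ x * s1 * (80 * s1 + 5 * η ^ 2) :=
      mul_le_mul_of_nonneg_left hA (by positivity)
    have h3 : x * s1 ≤ 1 / 64 := by
      have := mul_le_mul_of_nonneg_left h1Λ hx
      linarith
    have h4 : η ^ 2 ≤ η := by nlinarith
    have h5 : x * s1 * η ^ 2 ≤ 1 / 64 * η := mul_le_mul h3 h4 (sq_nonneg _) (by norm_num)
    have h6 : x * s1 * (80 * s1 + 5 * η ^ 2) = 80 * (x * s1 ^ 2) + 5 * (x * s1 * η ^ 2) := by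
      ring
    rw [h6] at h2
    linarith
  have hk := Q.knorm hν0 hν' hcond
  obtain ⟨κ, hκ⟩ : ∃ κ, κ = c / σ := ⟨_, rfl⟩
  have hκσ : κ * σ = c := by rw [hκ]; field_simp
  have hvv : ∑ j, v j * v j = 1 := by
    rw [← hv]; exact Finset.sum_congr rfl fun j _ => by ring
  have hcv : ∑ j, a2 j * v j = κ := by
    have h2 : σ * ∑ j, a2 j * v j = σ * κ := by
      rw [mul_comm σ κ, hκσ, ← hc, Finset.mul_sum]
      exact Finset.sum_congr rfl fun j _ => by rw [hva]; ring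
    exact mul_left_cancel₀ hσ.ne' h2
  have he : ∑ j, (a2 j - κ * v j) * v j = 0 := by
    have : ∑ j, (a2 j - κ * v j) * v j = ∑ j, a2 j * v j - κ * ∑ j, v j * v j := by
      rw [Finset.mul_sum, ← Finset.sum_sub_distrib]
      exact Finset.sum_congr rfl fun j _ => by ring
    rw [this, hcv, hvv]; ring
  have hq : κ ^ 2 + ∑ j, (a2 j - κ * v j) ^ 2 = s2 := by
    have : ∑ j, (a2 j - κ * v j) ^ 2 = ∑ j, a2 j ^ 2 - 2 * κ * ∑ j, a2 j * v j +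
        κ ^ 2 * ∑ j, v j * v j := by
      simp only [Finset.mul_sum, ← Finset.sum_sub_distrib, ← Finset.sum_add_distrib]
      exact Finset.sum_congr rfl fun j _ => by ring
    rw [this, hcv, hvv, hs2]; ring
  have E3' : ∫ z, W z * ∑ j, (n2 j z - U2 z * (κ * v j + (a2 j - κ * v j))) ^ 2 ∂(gI ι) ≤
      η ^ 2 := by
    have h2 : ∀ j, κ * v j + (a2 j - κ * v j) = a2 j := fun j => by ring
    simp only [h2]
    exact E3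
  have B := Q.bess (e := fun j => a2 j - κ * v j) he eU2 E3' hk α
  rw [hq] at B
  have hκ2 : κ ^ 2 = c ^ 2 / s1 := by
    rw [hκ, div_pow, hσ2]
  rw [hκ2] at B
  exact B

lemma mc_num {s1 s2 c n12 A1 A2 η : ℝ} (h1 : 0 < s1) (hs2 : 0 ≤ s2) (hη : 0 ≤ η) (hA1 : 0 ≤ A1)
    (hA2 : 0 ≤ A2) (hA14 : A1 ≤ 4) (hA24 : A2 ≤ 4) (hcs : n12 ^ 2 ≤ A1 * A2)
    (h : ∀ α : ℝ, 2 * α * (s2 * n12) ≤ c ^ 2 / s1 * A2 + α ^ 2 * (s2 * A1) +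
      (46 * |α| + 151 * α ^ 2) * (s2 * η)) :
    s1 * s2 * n12 ^ 2 ≤ c ^ 2 * A1 * A2 + 800 * (s1 * s2 * η) := by
  rcases hA1.eq_or_lt with h0 | hpos
  · rw [← h0, zero_mul] at hcs
    have h2 : n12 ^ 2 = 0 := le_antisymm hcs (sq_nonneg _)
    rw [h2, ← h0]
    have : 0 ≤ s1 * s2 * η := by positivity
    linarith
  · have hα := h (n12 / A1)
    have hn : |n12| ≤ 4 := by
      refine abs_le_of_sq_le_sq ?_ (by norm_num)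
      calc n12 ^ 2 ≤ A1 * A2 := hcs
        _ ≤ 4 * 4 := mul_le_mul hA14 hA24 hA2 (by norm_num)
        _ = 4 ^ 2 := by norm_num
    have e1 : |n12 / A1| * A1 = |n12| := by
      rw [abs_div, abs_of_pos hpos]; field_simp
    have e2 : (n12 / A1) ^ 2 * A1 * A1 = n12 ^ 2 := by field_simp
    have e3 : n12 / A1 * A1 = n12 := by field_simp
    have hb : (n12 / A1) ^ 2 * A1 ≤ A2 := by
      have h3 : (n12 / A1) ^ 2 * A1 * A1 ≤ A2 * A1 := by rw [e2]; linarith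
      exact le_of_mul_le_mul_right h3 hpos
    -- multiply by `A1 * s1`
    have h4 := mul_le_mul_of_nonneg_right hα (mul_nonneg hA1 h1.le)
    have e4 : 2 * (n12 / A1) * (s2 * n12) * (A1 * s1) = 2 * (s1 * s2 * n12 ^ 2) := by
      calc 2 * (n12 / A1) * (s2 * n12) * (A1 * s1)
          = 2 * (n12 / A1 * A1) * (s2 * n12) * s1 := by ring
        _ = _ := by rw [e3]; ring
    have e5 : (c ^ 2 / s1 * A2 + (n12 / A1) ^ 2 * (s2 * A1) +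
        (46 * |n12 / A1| + 151 * (n12 / A1) ^ 2) * (s2 * η)) * (A1 * s1) =
        c ^ 2 * A1 * A2 + s1 * s2 * n12 ^ 2 +
        46 * |n12| * (s1 * s2 * η) + 151 * ((n12 / A1) ^ 2 * A1) * (s1 * s2 * η) := by
      have e6 : c ^ 2 / s1 * s1 = c ^ 2 := by field_simp
      calc (c ^ 2 / s1 * A2 + (n12 / A1) ^ 2 * (s2 * A1) +
            (46 * |n12 / A1| + 151 * (n12 / A1) ^ 2) * (s2 * η)) * (A1 * s1)
          = (c ^ 2 / s1 * s1) * A1 * A2 + s1 * s2 * ((n12 / A1) ^ 2 * A1 * A1) +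
            46 * (|n12 / A1| * A1) * (s1 * s2 * η) +
            151 * ((n12 / A1) ^ 2 * A1) * (s1 * s2 * η) := by ring
        _ = _ := by rw [e6, e2, e1]
    rw [e4, e5] at h4
    have h5 : 0 ≤ s1 * s2 * η := by positivity
    have h6 : 46 * |n12| * (s1 * s2 * η) ≤ 46 * 4 * (s1 * s2 * η) :=
      mul_le_mul_of_nonneg_right (by linarith) h5
    have h7 : 151 * ((n12 / A1) ^ 2 * A1) * (s1 * s2 * η) ≤ 151 * 4 * (s1 * s2 * η) :=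
      mul_le_mul_of_nonneg_right (by linarith) h5
    linarith

/-- **Maximal correlation.** Two functions whose gradients are nearly parallel to `a1` and `a2`,
under a weight whose logarithmic gradient is nearly `x N1 a1`: the correlation is at most the
cosine of the angle of `a1` and `a2`. -/
theorem mc {x Λ : ℝ} {W N1 N2 : (ι → ℝ) → ℝ} {u n1 n2 : ι → (ι → ℝ) → ℝ}
    (D : Dat x Λ W N1 N2 u n1 n2) (hx : 0 ≤ x) (hΛ : 1 ≤ Λ) (hxΛ : 64 * (x * Λ ^ 2) ≤ 1)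
    {U1 U2 : (ι → ℝ) → ℝ} (eU1 : EG U1) (eU2 : EG U2) (bU1 : ∀ z, |U1 z| ≤ 4)
    {a1 a2 : ι → ℝ} {s1 s2 c ε ν : ℝ} (hs1 : ∑ e, a1 e ^ 2 = s1) (h1 : 0 < s1)
    (h1Λ : s1 ≤ Λ ^ 2) (hs2 : ∑ e, a2 e ^ 2 = s2) (hc : ∑ e, a1 e * a2 e = c)
    (hε : 0 ≤ ε) (hε1 : ε ≤ 1)
    (E1 : ∫ z, W z * ∑ e, (u e z - N1 z * a1 e) ^ 2 ∂(gI ι) ≤ ε)
    (E2 : ∫ z, W z * ∑ e, (n1 e z - U1 z * a1 e) ^ 2 ∂(gI ι) ≤ ε)
    (E3 : ∫ z, W z * ∑ e, (n2 e z - U2 z * a2 e) ^ 2 ∂(gI ι) ≤ ε)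
    (hν : ∀ l : ℝ, ν ≤ ∫ z, W z * (N1 z - l * ∑ e, a1 e * z e) ^ 2 ∂(gI ι))
    (hC : 4800 * (x * s1 ^ 2) ≤ ν) :
    s1 * s2 * (∫ z, W z * (N1 z * N2 z) ∂(gI ι)) ^ 2 ≤
      c ^ 2 * (∫ z, W z * N1 z ^ 2 ∂(gI ι)) * ∫ z, W z * N2 z ^ 2 ∂(gI ι) +
      800 * (s1 * s2 * √ε) := by
  have hη : 0 ≤ √ε := Real.sqrt_nonneg _
  have hη1 : √ε ≤ 1 := by rw [Real.sqrt_le_one]; exact hε1
  have hη2 : √ε ^ 2 = ε := Real.sq_sqrt hε
  have h0 : ∀ z, 0 ≤ W z := fun z => (D.pos z).le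
  have L := fun α => mc_lin D hx hΛ hxΛ eU1 eU2 bU1 hs1 h1 h1Λ hs2 hc hη hη1
    (by rw [hη2]; exact E1) (by rw [hη2]; exact E2) (by rw [hη2]; exact E3) hν hC α
  have hs20 : 0 ≤ s2 := by rw [← hs2]; exact Finset.sum_nonneg fun e _ => sq_nonneg _
  have hb : ∀ {N : (ι → ℝ) → ℝ}, EG N → (∀ z, |N z| ≤ 2) →
      0 ≤ ∫ z, W z * N z ^ 2 ∂(gI ι) ∧ ∫ z, W z * N z ^ 2 ∂(gI ι) ≤ 4 := by
    intro N eN bN
    refine ⟨integral_nonneg fun z => mul_nonneg (h0 z) (sq_nonneg _), ?_⟩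
    have h3 := wbd D.egW h0 eN (EG.const (ι := ι) 1) (H := 2) (fun z => by simpa using bN z)
    simp only [one_pow, mul_one, D.one] at h3
    linarith
  obtain ⟨p1, p2⟩ := hb D.e1 D.b1
  obtain ⟨p3, p4⟩ := hb D.e2 D.b2
  exact mc_num h1 hs20 hη p1 p3 p2 p4 (wcs D.egW h0 D.e1 D.e2) L

end Vale.Agent.P146.H246.Mc
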