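import Vale.Agent.P146.H329.Fb2

/-!
Maximal correlation of two functions of nearly one Gaussian variable, part 1: partial derivatives
give the gradient; derivative of a profile; integration by parts orthogonal to a direction; second
order Poincaré inequality for odd functions of one variable.
-/

open MeasureTheory ProbabilityTheory Filter Topology

namespace Vale.Agent.P146.H246.Mc

open Vale.Agent.P157.Lv Vale.Agent.P146.H329

set_option linter.unusedSectionVars false

variable {ι : Type} [Fintype ι] [DecidableEq ι]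

/-- Continuous partial derivatives give the gradient. -/
theorem fd_of_pd {F : (ι → ℝ) → ℝ} {F' : ι → (ι → ℝ) → ℝ} (h : ∀ e, PD e F (F' e))
    (hc : ∀ e, Continuous (F' e)) : FD F F' := by
  intro y
  rw [hasFDerivAt_iff_isLittleO_nhds_zero]
  obtain ⟨ys, hys⟩ : ∃ ys : Finset ι → (ι → ℝ) → (ι → ℝ),
      ∀ s k, ys s k = fun j => if j ∈ s then y j + k j else y j := ⟨_, fun _ _ => rfl⟩
  have key : ∀ s : Finset ι, (fun k : ι → ℝ => F (ys s k) - F y - ∑ j ∈ s, F' j y * k j)
      =o[𝓝 0] fun k => k := by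
    intro s
    induction s using Finset.induction_on with
    | empty =>
      have : (fun k : ι → ℝ => F (ys ∅ k) - F y - ∑ j ∈ (∅ : Finset ι), F' j y * k j) =
          fun _ => 0 := by
        funext k
        rw [hys]
        simp
      rw [this]
      exact Asymptotics.isLittleO_zero _ _
    | insert e s he ih =>
      have h1 : (fun k : ι → ℝ => F (ys (insert e s) k) - F (ys s k) - F' e y * k e)
          =o[𝓝 0] fun k => k := by
        rw [Asymptotics.isLittleO_iff]
        intro ε hε
        have hct := (hc e).continuousAt (x := y)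
        rw [Metric.continuousAt_iff] at hct
        obtain ⟨δ, hδ, hd⟩ := hct ε hε
        filter_upwards [Metric.ball_mem_nhds (0 : ι → ℝ) hδ] with k hk
        rw [Metric.mem_ball, dist_zero_right] at hk
        have e1 : ys (insert e s) k = Function.update (ys s k) e (y e + k e) := by
          funext j
          rw [hys, hys]
          by_cases hj : j = e
          · subst hj; simp
          · simp [Finset.mem_insert, hj]
        have e2 : ys s k = Function.update (ys s k) e (y e) := by
          funext j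
          by_cases hj : j = e
          · subst hj; simp [hys, he]
          · simp [Function.update_of_ne hj]
        have hder : ∀ t ∈ Set.uIcc (y e) (y e + k e), HasDerivWithinAt
            (fun t => F (Function.update (ys s k) e t) - F' e y * t)
            (F' e (Function.update (ys s k) e t) - F' e y) (Set.uIcc (y e) (y e + k e)) t := by
          intro t _
          have := ((h e) (ys s k) t).sub ((hasDerivAt_id' t).const_mul (F' e y))
          simp only [mul_one] at this
          exact this.hasDerivWithinAt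
        have hb : ∀ t ∈ Set.uIcc (y e) (y e + k e),
            ‖F' e (Function.update (ys s k) e t) - F' e y‖ ≤ ε := by
          intro t ht
          have hnorm : dist (Function.update (ys s k) e t) y < δ := by
            refine lt_of_le_of_lt ?_ hk
            rw [dist_eq_norm]
            refine (pi_norm_le_iff_of_nonneg (norm_nonneg _)).2 fun j => ?_
            by_cases hj : j = e
            · subst hj
              rw [Pi.sub_apply, Function.update_self]
              have h3 : |t - y j| ≤ |k j| := by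
                rcases Set.mem_uIcc.1 ht with h4 | h4
                · rw [abs_of_nonneg (by linarith), abs_of_nonneg (by linarith)]; linarith
                · rw [abs_of_nonpos (by linarith), abs_of_nonpos (by linarith)]; linarith
              rw [Real.norm_eq_abs]
              exact h3.trans (norm_le_pi_norm k j)
            · rw [Pi.sub_apply, Function.update_of_ne hj, hys]
              by_cases hjs : j ∈ s
              · simp only [hjs, if_true, add_sub_cancel_left]
                exact norm_le_pi_norm k j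
              · simp [hjs]
          have := hd hnorm
          rw [dist_eq_norm] at this
          exact this.le
        have h2 := Convex.norm_image_sub_le_of_norm_hasDerivWithin_le hder hb
          (convex_uIcc _ _) Set.left_mem_uIcc Set.right_mem_uIcc
        rw [e1]
        nth_rewrite 2 [e2]
        have e3 : F (Function.update (ys s k) e (y e + k e)) - F (Function.update (ys s k) e (y e))
            - F' e y * k e = (F (Function.update (ys s k) e (y e + k e)) - F' e y * (y e + k e)) -
              (F (Function.update (ys s k) e (y e)) - F' e y * y e) := by ring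
        rw [e3]
        refine h2.trans ?_
        rw [add_sub_cancel_left]
        exact mul_le_mul_of_nonneg_left (norm_le_pi_norm k e) hε.le
      have h2 := h1.add ih
      refine h2.congr_left fun k => ?_
      rw [Finset.sum_insert he]
      ring
  have h1 := key Finset.univ
  refine h1.congr_left fun k => ?_
  have e1 : ys Finset.univ k = y + k := by
    funext j
    rw [hys]
    simp
  rw [e1]
  congr 1
  simp [_root_.sum_apply, _root_.smul_apply]

lemma hd_tp (v x : ι → ℝ) (t : ℝ) : HasDerivAt (fun t => tp v x t) v t := by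
  rw [hasDerivAt_pi]
  intro j
  unfold tp
  have := (((hasDerivAt_id' t).sub_const (dv v x)).mul_const (v j)).const_add (x j)
  simpa using this

/-- The derivative of a profile. -/
theorem hd_pr {F : (ι → ℝ) → ℝ} {F' : ι → (ι → ℝ) → ℝ} (h : FD F F') (hF : EG F)
    (hF' : ∀ j, EG (F' j)) (v : ι → ℝ) (t : ℝ) :
    HasDerivAt (pr v F) (pr v (fun z => ∑ k, v k * F' k z) t) t := by
  have hG : EG fun z => ∑ k, v k * F' k z := EG.sum Finset.univ fun k _ => (hF' k).const_mul _
  obtain ⟨C, a, hC, ha, hb⟩ := hG.bdd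
  set c := a * (1 + (∑ i, |v i|) * ‖v‖) with hcd
  have h1 := hasDerivAt_integral_of_dominated_loc_of_deriv_le (μ := gI ι)
    (F := fun t x => F (tp v x t)) (F' := fun t x => ∑ k, v k * F' k (tp v x t))
    (x₀ := t) (s := Metric.ball t 1)
    (bound := fun x => C * Real.exp (a * ‖v‖ * (|t| + 1)) * Real.exp (c * ‖x‖))
    (Metric.ball_mem_nhds t one_pos)
    (Filter.Eventually.of_forall fun s => (eg_tp hF v s).meas.aestronglyMeasurable)
    (eg_tp hF v t).integrable (eg_tp hG v t).meas.aestronglyMeasurable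
    (Filter.Eventually.of_forall fun x s hs => ?_)
    ((integrable_exp_norm c).const_mul _)
    (Filter.Eventually.of_forall fun x s _ => ?_)
  · exact h1.2
  · rw [Real.norm_eq_abs]
    refine (hb _).trans ?_
    rw [mul_assoc, ← Real.exp_add]
    refine mul_le_mul_of_nonneg_left (Real.exp_le_exp.2 ?_) hC
    rw [Metric.mem_ball, Real.dist_eq] at hs
    have h2 : |s| ≤ |t| + 1 := by
      calc |s| = |(s - t) + t| := by ring_nf
        _ ≤ |s - t| + |t| := abs_add_le _ _
        _ ≤ _ := by linarith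
    have h3 := mul_le_mul_of_nonneg_left (norm_tp_le v x s) ha
    have h4 : a * ‖v‖ * |s| ≤ a * ‖v‖ * (|t| + 1) := by gcongr
    calc a * ‖tp v x s‖ ≤ a * ((1 + (∑ i, |v i|) * ‖v‖) * ‖x‖ + ‖v‖ * |s|) := h3
      _ = a * ‖v‖ * |s| + c * ‖x‖ := by rw [hcd]; ring
      _ ≤ _ := by linarith
  · have h2 := (h (tp v x s)).comp_hasDerivAt s (hd_tp v x s)
    refine h2.congr_deriv ?_
    simp only [_root_.sum_apply, _root_.smul_apply, ContinuousLinearMap.proj_apply, smul_eq_mul]
    exact Finset.sum_congr rfl fun k _ => mul_comm _ _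

lemma fd_tp {F : (ι → ℝ) → ℝ} {F' : ι → (ι → ℝ) → ℝ} (h : FD F F') (v : ι → ℝ) (t : ℝ) :
    FD (fun x => F (tp v x t)) (fun j x => F' j (tp v x t) - v j * ∑ k, v k * F' k (tp v x t)) := by
  intro x
  have h1 : HasFDerivAt (fun x : ι → ℝ => tp v x t)
      (ContinuousLinearMap.id ℝ (ι → ℝ) - (lv v).smulRight v) x := by
    have h2 : (fun x : ι → ℝ => tp v x t) = fun x =>
        (ContinuousLinearMap.id ℝ (ι → ℝ) - (lv v).smulRight v) x + t • v := by
      funext x j
      simp only [tp, _root_.sub_apply, ContinuousLinearMap.id_apply,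
        ContinuousLinearMap.smulRight_apply, Pi.add_apply, Pi.sub_apply, Pi.smul_apply,
        smul_eq_mul, lv_apply]
      ring
    rw [h2]
    exact (ContinuousLinearMap.hasFDerivAt _).add_const _
  refine ((h _).comp x h1).congr_fderiv ?_
  refine clm_ext fun i => ?_
  rw [sum_proj_single]
  have h3 : (ContinuousLinearMap.id ℝ (ι → ℝ) - (lv v).smulRight v) (Pi.single i 1) =
      (Pi.single i (1 : ℝ) : ι → ℝ) - v i • v := by
    have : lv v (Pi.single i 1) = v i := by
      rw [lv_apply]; simp [dv, Pi.single_apply]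
    simp only [_root_.sub_apply, ContinuousLinearMap.id_apply,
      ContinuousLinearMap.smulRight_apply, this]
  rw [ContinuousLinearMap.comp_apply, h3, map_sub, map_smul, sum_proj_single]
  simp only [_root_.sum_apply, _root_.smul_apply, ContinuousLinearMap.proj_apply, smul_eq_mul]
  congr 1
  congr 1
  exact Finset.sum_congr rfl fun k _ => mul_comm _ _

/-- Integration by parts in a direction `e` orthogonal to `v`, against a function of `v·z`. -/
theorem stein_perp {v e : ι → ℝ} (hv : ∑ i, v i ^ 2 = 1) (he : ∑ i, e i * v i = 0)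
    {F : (ι → ℝ) → ℝ} {F' : ι → (ι → ℝ) → ℝ} (h : FD F F') (hF : EG F) (hF' : ∀ j, EG (F' j))
    {φ : ℝ → ℝ} (hφ : CcE φ) :
    ∫ z, φ (dv v z) * (dv e z * F z) ∂(gI ι) = ∫ z, φ (dv v z) * ∑ j, e j * F' j z ∂(gI ι) := by
  have hS : EG fun z => ∑ j, e j * F' j z := EG.sum Finset.univ fun k _ => (hF' k).const_mul _
  rw [int_tp hv ((eg_comp_dv hφ v).mul ((eg_dv e).mul hF)),
    int_tp hv ((eg_comp_dv hφ v).mul hS)]
  congr 1
  funext y
  simp only [dv_tp hv]
  rw [integral_const_mul, integral_const_mul]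
  congr 1
  obtain ⟨t, ht⟩ : ∃ t, t = dv v y := ⟨_, rfl⟩
  rw [← ht]
  have e1 : ∀ x, dv e (tp v x t) = dv e x := by
    intro x
    have : dv e (tp v x t) = dv e x + (t - dv v x) * ∑ i, e i * v i := by
      unfold dv tp
      rw [Finset.mul_sum, ← Finset.sum_add_distrib]
      refine Finset.sum_congr rfl fun j _ => ?_
      unfold dv
      ring
    rw [this, he]; ring
  simp only [e1]
  have h2 := stein_dir (fd_tp h v t) (eg_tp hF v t) (fun j => (eg_tp (hF' j) v t).sub
    ((EG.sum Finset.univ fun k _ => (eg_tp (hF' k) v t).const_mul (v k)).const_mul (v j))) e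
  rw [h2]
  congr 1
  funext x
  have : ∑ j, e j * (F' j (tp v x t) - v j * ∑ k, v k * F' k (tp v x t)) =
      ∑ j, e j * F' j (tp v x t) - (∑ k, v k * F' k (tp v x t)) * ∑ j, e j * v j := by
    rw [Finset.mul_sum, ← Finset.sum_sub_distrib]
    exact Finset.sum_congr rfl fun j _ => by ring
  rw [this, he]; ring

/-- Second order Poincaré inequality for odd functions of one Gaussian variable. -/
theorem poin2 {v : ι → ℝ} (hv : ∑ i, v i ^ 2 = 1) {f f' : ℝ → ℝ} (ho : OE f)
    (hd : ∀ t, HasDerivAt f (f' t) t) (c' : CcE f') :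
    5 / 2 * ∫ z, f (dv v z) ^ 2 ∂(gI ι) ≤ ∫ z, f' (dv v z) ^ 2 ∂(gI ι) +
      3 / 2 * (∫ z, dv v z * f (dv v z) ∂(gI ι)) ^ 2 := by
  have cf : CcE f := cce_of ho.cont ho.bdd
  have hG : GA (Gt f) f := ⟨Gt_deriv ho, Gt_cce ho, cf⟩
  obtain ⟨G, hGe⟩ : ∃ G, G = Gt f := ⟨_, rfl⟩
  rw [← hGe] at hG
  have cG : CcE G := hG.g
  obtain ⟨G1, hG1⟩ : ∃ G1 : ℝ → ℝ, ∀ t, G1 t = t * G t - f t := ⟨_, fun _ => rfl⟩
  have dG : ∀ t, HasDerivAt G (G1 t) t := fun t => by rw [hG1]; exact hG.der t
  have cG1 : CcE G1 := by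
    have : G1 = fun t => t * G t - f t := funext hG1
    rw [this]; exact hG.d
  obtain ⟨G2, hG2⟩ : ∃ G2 : ℝ → ℝ, ∀ t, G2 t = G t + t * G1 t - f' t := ⟨_, fun _ => rfl⟩
  have dG1 : ∀ t, HasDerivAt G1 (G2 t) t := by
    intro t
    have : G1 = fun t => t * G t - f t := funext hG1
    rw [this]
    refine (((hasDerivAt_id' t).fun_mul (dG t)).fun_sub (hd t)).congr_deriv ?_
    rw [hG2]; ring
  have cG2 : CcE G2 := by
    have : G2 = fun t => G t + t * G1 t - f' t := funext hG2
    rw [this]; exact (cG.add (CcE.id.mul cG1)).sub c'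
  -- norms
  have n1 : ∫ z, f (dv v z) ^ 2 ∂(gI ι) = ∫ z, G (dv v z) ^ 2 ∂(gI ι) +
      ∫ z, G1 (dv v z) ^ 2 ∂(gI ι) := by
    have := hG.norm hv
    simp only [← hG1] at this
    exact this
  obtain ⟨k, hk⟩ : ∃ k : ℝ → ℝ, ∀ t, k t = t * G1 t - G2 t := ⟨_, fun _ => rfl⟩
  have ck : CcE k := by
    have : k = fun t => t * G1 t - G2 t := funext hk
    rw [this]; exact (CcE.id.mul cG1).sub cG2
  have hGA1 : GA G1 k := ⟨fun t => (dG1 t).congr_deriv (by rw [hk]; ring), cG1, ck⟩
  have n2 : ∫ z, k (dv v z) ^ 2 ∂(gI ι) = ∫ z, G1 (dv v z) ^ 2 ∂(gI ι) +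
      ∫ z, G2 (dv v z) ^ 2 ∂(gI ι) := by
    have := hGA1.norm hv
    have e : ∀ z : ι → ℝ, dv v z * G1 (dv v z) - k (dv v z) = G2 (dv v z) := fun z => by
      rw [hk]; ring
    simp only [e] at this
    exact this
  have n3 : ∫ z, dv v z * (G (dv v z) * G1 (dv v z)) ∂(gI ι) =
      ∫ z, (G1 (dv v z) * G1 (dv v z) + G (dv v z) * G2 (dv v z)) ∂(gI ι) := by
    refine stein_v (f := fun t => G t * G1 t) (f' := fun t => G1 t * G1 t + G t * G2 t)
      (fun t => ?_) (cG.mul cG1) ((cG1.mul cG1).add (cG.mul cG2)) hv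
    exact (dG t).fun_mul (dG1 t)
  have n4 : ∫ z, f' (dv v z) ^ 2 ∂(gI ι) = ∫ z, G (dv v z) ^ 2 ∂(gI ι) +
      2 * ∫ z, G1 (dv v z) ^ 2 ∂(gI ι) + ∫ z, k (dv v z) ^ 2 ∂(gI ι) := by
    have e1 : ∀ z : ι → ℝ, f' (dv v z) ^ 2 = (G (dv v z) ^ 2 + k (dv v z) ^ 2) +
        2 * (dv v z * (G (dv v z) * G1 (dv v z)) - G (dv v z) * G2 (dv v z)) := by
      intro z
      have : f' (dv v z) = G (dv v z) + k (dv v z) := by rw [hk, hG2]; ring
      rw [this]
      have h3 : k (dv v z) = dv v z * G1 (dv v z) - G2 (dv v z) := hk _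
      calc (G (dv v z) + k (dv v z)) ^ 2 = (G (dv v z) ^ 2 + k (dv v z) ^ 2) +
          2 * (G (dv v z) * k (dv v z)) := by ring
        _ = _ := by rw [h3]; ring
    have eG := eg_comp_dv cG v
    have eG1 := eg_comp_dv cG1 v
    have eG2 := eg_comp_dv cG2 v
    have ek := eg_comp_dv ck v
    have et := eg_dv v
    have h1 : ∫ z, f' (dv v z) ^ 2 ∂(gI ι) = ∫ z, ((G (dv v z) ^ 2 + k (dv v z) ^ 2) +
        2 * (dv v z * (G (dv v z) * G1 (dv v z)) - G (dv v z) * G2 (dv v z))) ∂(gI ι) := by
      congr 1; funext z; exact e1 z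
    rw [h1, integral_add ((eG.pow 2).add (ek.pow 2)).integrable
      (((et.mul (eG.mul eG1)).sub (eG.mul eG2)).const_mul 2).integrable,
      integral_add (eG.pow 2).integrable (ek.pow 2).integrable, integral_const_mul,
      integral_sub (et.mul (eG.mul eG1)).integrable (eG.mul eG2).integrable, n3,
      integral_add (eG1.mul eG1).integrable (eG.mul eG2).integrable]
    have h2 : ∫ z, G1 (dv v z) * G1 (dv v z) ∂(gI ι) = ∫ z, G1 (dv v z) ^ 2 ∂(gI ι) := by
      congr 1; funext z; ring
    rw [h2]; ring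
  -- Poincaré
  have sq1 : ∀ {h h1 : ℝ → ℝ}, (∀ t, HasDerivAt h (h1 t) t) → CcE h → CcE h1 →
      ∫ z, (h (dv v z) - ∫ w, h (dv v w) ∂(gI ι)) ^ 2 ∂(gI ι) ≤ ∫ z, h1 (dv v z) ^ 2 ∂(gI ι) := by
    intro h h1 hh c0 c1
    have h2 := cc_var_le_one (F := fun z : ι → ℝ => h (dv v z))
      (F' := fun e z => h1 (dv v z) * v e) (eg_comp_dv c0 v)
      (fun e => (FD.comp1 hh (fd_dv v)).pd e) (fun e => eg_mul_right (eg_comp_dv c1 v) (v e))
    refine h2.trans (le_of_eq ?_)
    have : ∀ e, ∫ z, (h1 (dv v z) * v e) ^ 2 ∂(gI ι) =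
        (∫ z, h1 (dv v z) ^ 2 ∂(gI ι)) * v e ^ 2 := by
      intro e
      rw [← integral_mul_const]
      congr 1
      funext z
      ring
    rw [Finset.sum_congr rfl fun e _ => this e, ← Finset.mul_sum, hv, mul_one]
  have var : ∀ {h : ℝ → ℝ}, CcE h →
      ∫ z, (h (dv v z) - ∫ w, h (dv v w) ∂(gI ι)) ^ 2 ∂(gI ι) =
        ∫ z, h (dv v z) ^ 2 ∂(gI ι) - (∫ w, h (dv v w) ∂(gI ι)) ^ 2 := by
    intro h c0
    have e0 := eg_comp_dv c0 v
    obtain ⟨m, hm⟩ : ∃ m, m = ∫ w, h (dv v w) ∂(gI ι) := ⟨_, rfl⟩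
    rw [← hm]
    have h1 : ∫ z, (h (dv v z) - m) ^ 2 ∂(gI ι) =
        ∫ z, ((h (dv v z) ^ 2 - 2 * m * h (dv v z)) + m ^ 2) ∂(gI ι) := by
      congr 1; funext z; ring
    rw [h1, integral_add ((e0.pow 2).sub (e0.const_mul _)).integrable (integrable_const _),
      integral_sub (e0.pow 2).integrable (e0.const_mul _).integrable, integral_const_mul, ← hm,
      integral_const, probReal_univ, one_smul]
    ring
  have p1 := sq1 dG cG cG1
  rw [var cG] at p1
  have p2 := sq1 dG1 cG1 cG2
  rw [var cG1] at p2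
  have m1 : ∫ w, G1 (dv v w) ∂(gI ι) = 0 := by
    refine int_odd (eg_comp_dv cG1 v) fun z => ?_
    have e1 : dv v (-z) = -dv v z := by simp [dv]
    rw [e1, hG1, hG1, hGe, Gt_even ho, ho.odd]
    ring
  have m0 : ∫ z, dv v z * f (dv v z) ∂(gI ι) = ∫ z, G (dv v z) ∂(gI ι) := hG.mean hv
  rw [m1] at p2
  rw [n4, n2, n1, m0]
  nlinarith [p1, p2]

end Vale.Agent.P146.H246.Mc
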