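import Vale.Agent.P146.H246.Mc1

/-!
Maximal correlation of two functions of nearly one Gaussian variable, part 2: the solution of
`k' = k (t - a F) - F`, weighted Cauchy-Schwarz and weighted integration by parts.
-/

open MeasureTheory ProbabilityTheory Filter Topology

namespace Vale.Agent.P146.H246.Mc

open Vale.Agent.P157.Lv Vale.Agent.P146.H329

set_option linter.unusedSectionVars false

/-- The bounded solution of `k' = k (t - a F) - F` for a bounded odd `F`. -/
theorem kk {F : ℝ → ℝ} (hF : Continuous F) (hodd : ∀ t, F (-t) = -F t) (hb : ∀ t, |F t| ≤ 2)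
    {a : ℝ} (ha : 0 ≤ a) (ha1 : a ≤ 1 / 8) :
    ∃ k : ℝ → ℝ, (∀ t, HasDerivAt k (k t * (t - a * F t) - F t) t) ∧ ∀ t, |k t| ≤ 8 := by
  obtain ⟨G, hG⟩ : ∃ G : ℝ → ℝ, ∀ t, G t = ∫ s in (0 : ℝ)..t, a * F s := ⟨_, fun _ => rfl⟩
  have hGf : G = fun t => ∫ s in (0 : ℝ)..t, a * F s := funext hG
  have hc : Continuous fun s => a * F s := by fun_prop
  have dG : ∀ t, HasDerivAt G (a * F t) t := by
    intro t
    rw [hGf]
    exact intervalIntegral.integral_hasDerivAt_right (hc.intervalIntegrable _ _)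
      (hc.stronglyMeasurableAtFilter _ _) hc.continuousAt
  have Gev : ∀ t, G (-t) = G t := by
    intro t
    have h1 := intervalIntegral.integral_comp_neg (a := (0 : ℝ)) (b := t) (fun s => a * F s)
    simp only [hodd, mul_neg, intervalIntegral.integral_neg, neg_zero] at h1
    rw [← hG t, intervalIntegral.integral_symm, ← hG (-t)] at h1
    linarith
  have Glip : ∀ s t, |G s - G t| ≤ 2 * a * |s - t| := by
    intro s t
    have h1 := Convex.norm_image_sub_le_of_norm_hasDerivWithin_le (f := G)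
      (f' := fun t => a * F t) (s := Set.univ) (C := 2 * a) (x := t) (y := s)
      (fun y _ => (dG y).hasDerivWithinAt) (fun y _ => by
        rw [Real.norm_eq_abs, abs_mul, abs_of_nonneg ha]
        nlinarith [hb y]) convex_univ (Set.mem_univ _) (Set.mem_univ _)
    simpa [Real.norm_eq_abs] using h1
  have G0 : G 0 = 0 := by rw [hG]; simp
  have cG : Continuous G := continuous_iff_continuousAt.2 fun t => (dG t).continuousAt
  obtain ⟨A, hA⟩ : ∃ A : ℝ → ℝ, ∀ t, A t = F t * Real.exp (G t) := ⟨_, fun _ => rfl⟩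
  have hAf : A = fun t => F t * Real.exp (G t) := funext hA
  have oA : OE A := by
    refine ⟨by rw [hAf]; fun_prop, fun t => by rw [hA, hA, hodd, Gev]; ring, 2, 2 * a, by norm_num,
      by positivity, fun t => ?_⟩
    rw [hA, abs_mul, abs_of_pos (Real.exp_pos _)]
    refine mul_le_mul (hb t) (Real.exp_le_exp.2 ?_) (Real.exp_pos _).le (by norm_num)
    have := Glip t 0
    rw [G0, sub_zero, sub_zero] at this
    exact (le_abs_self _).trans this
  refine ⟨fun t => Real.exp (-G t) * Gt A t, fun t => ?_, ?_⟩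
  · have h1 := ((dG t).fun_neg.exp).fun_mul (Gt_deriv oA t)
    refine h1.congr_deriv ?_
    rw [hA]
    have : Real.exp (-G t) * Real.exp (G t) = 1 := by rw [← Real.exp_add]; simp
    linear_combination (-(F t)) * this
  · have hi := int_wt (cce_of oA.cont oA.bdd)
    have hK : Integrable fun u : ℝ => Real.exp (-(1 / 4) * u ^ 2) :=
      integrable_exp_neg_mul_sq (by norm_num)
    have hKv : ∫ u : ℝ, Real.exp (-(1 / 4) * u ^ 2) = √(Real.pi / (1 / 4)) := by
      have := integral_gaussian (1 / 4)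
      simpa using this
    have key : ∀ t, 0 ≤ t → |Real.exp (-G t) * Gt A t| ≤ 8 := by
      intro t ht
      have hsh : Integrable fun s : ℝ => Real.exp (-(1 / 4) * (s - t) ^ 2) := hK.comp_sub_right t
      unfold Gt
      rw [← integral_const_mul, ← integral_const_mul]
      have h1 : ∀ s ∈ Set.Ioi t, ‖Real.exp (-G t) * (Real.exp (t ^ 2 / 2) *
          (A s * Real.exp (-(s ^ 2 / 2))))‖ ≤
          2 * Real.exp (1 / 16) * Real.exp (-(1 / 4) * (s - t) ^ 2) := by
        intro s hs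
        have hs' : t < s := hs
        rw [hA, Real.norm_eq_abs, abs_mul, abs_mul, abs_mul, abs_mul, abs_of_pos (Real.exp_pos _),
          abs_of_pos (Real.exp_pos _), abs_of_pos (Real.exp_pos _), abs_of_pos (Real.exp_pos _)]
        have e1 : Real.exp (-G t) * Real.exp (t ^ 2 / 2) * Real.exp (G s) *
            Real.exp (-(s ^ 2 / 2)) ≤ Real.exp (1 / 16) * Real.exp (-(1 / 4) * (s - t) ^ 2) := by
          rw [← Real.exp_add, ← Real.exp_add, ← Real.exp_add, ← Real.exp_add]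
          apply Real.exp_le_exp.2
          have h2 := (le_abs_self _).trans (Glip s t)
          rw [abs_of_pos (by linarith : 0 < s - t)] at h2
          have h3 : 0 ≤ t * (s - t) := mul_nonneg ht (by linarith)
          nlinarith [sq_nonneg (2 * a - (s - t) / 2)]
        calc Real.exp (-G t) * (Real.exp (t ^ 2 / 2) * (|F s| * Real.exp (G s) *
              Real.exp (-(s ^ 2 / 2))))
            = |F s| * (Real.exp (-G t) * Real.exp (t ^ 2 / 2) * Real.exp (G s) *
              Real.exp (-(s ^ 2 / 2))) := by ring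
          _ ≤ 2 * (Real.exp (1 / 16) * Real.exp (-(1 / 4) * (s - t) ^ 2)) :=
              mul_le_mul (hb s) e1 (by positivity) (by norm_num)
          _ = _ := by ring
      have h2 : Integrable fun s : ℝ =>
          2 * Real.exp (1 / 16) * Real.exp (-(1 / 4) * (s - t) ^ 2) := hsh.const_mul _
      calc |∫ s in Set.Ioi t, Real.exp (-G t) * (Real.exp (t ^ 2 / 2) *
            (A s * Real.exp (-(s ^ 2 / 2))))|
          ≤ ∫ s in Set.Ioi t, ‖Real.exp (-G t) * (Real.exp (t ^ 2 / 2) *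
            (A s * Real.exp (-(s ^ 2 / 2))))‖ := by
            rw [← Real.norm_eq_abs]
            exact norm_integral_le_integral_norm _
        _ ≤ ∫ s in Set.Ioi t, 2 * Real.exp (1 / 16) * Real.exp (-(1 / 4) * (s - t) ^ 2) :=
            setIntegral_mono_on (((hi.const_mul _).const_mul _).norm.integrableOn) h2.integrableOn
              measurableSet_Ioi h1
        _ ≤ ∫ s : ℝ, 2 * Real.exp (1 / 16) * Real.exp (-(1 / 4) * (s - t) ^ 2) :=
            setIntegral_le_integral h2 (Filter.Eventually.of_forall fun s => by positivity)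
        _ = 2 * Real.exp (1 / 16) * √(Real.pi / (1 / 4)) := by
            rw [integral_const_mul, ← hKv]
            congr 1
            exact integral_sub_right_eq_self (fun u : ℝ => Real.exp (-(1 / 4) * u ^ 2)) t
        _ ≤ 8 := by
            have h3 : Real.exp (1 / 16) ≤ 1.08 := by
              have := Real.exp_bound_div_one_sub_of_interval (x := 1 / 16) (by norm_num)
                (by norm_num)
              refine this.trans ?_
              norm_num
            have h4 : √(Real.pi / (1 / 4)) ≤ 3.6 := by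
              rw [Real.sqrt_le_left (by norm_num)]
              have := Real.pi_lt_d2
              norm_num at this ⊢
              linarith
            have h5 := Real.exp_pos (1 / 16)
            have h6 := Real.sqrt_nonneg (Real.pi / (1 / 4))
            nlinarith
    intro t
    rcases le_total 0 t with h | h
    · exact key t h
    · have := key (-t) (by linarith)
      rwa [Gt_even oA, Gev] at this

variable {ι : Type} [Fintype ι] [DecidableEq ι]

section W

variable {W : (ι → ℝ) → ℝ}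

/-- Weighted Cauchy-Schwarz. -/
theorem wcs (hW : EG W) (h0 : ∀ z, 0 ≤ W z) {f g : (ι → ℝ) → ℝ} (hf : EG f) (hg : EG g) :
    (∫ z, W z * (f z * g z) ∂(gI ι)) ^ 2 ≤
      (∫ z, W z * f z ^ 2 ∂(gI ι)) * ∫ z, W z * g z ^ 2 ∂(gI ι) := by
  have h1 : ∀ s : ℝ, 0 ≤ (∫ z, W z * g z ^ 2 ∂(gI ι)) * (s * s) +
      (2 * ∫ z, W z * (f z * g z) ∂(gI ι)) * s + ∫ z, W z * f z ^ 2 ∂(gI ι) := by
    intro s
    have h2 : 0 ≤ ∫ z, W z * (f z + s * g z) ^ 2 ∂(gI ι) :=
      integral_nonneg fun z => mul_nonneg (h0 z) (sq_nonneg _)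
    have h3 : ∫ z, W z * (f z + s * g z) ^ 2 ∂(gI ι) = ∫ z, ((s * s) * (W z * g z ^ 2) +
        (2 * s) * (W z * (f z * g z)) + W z * f z ^ 2) ∂(gI ι) := by
      congr 1; funext z; ring
    rw [h3, integral_add (((hW.mul (hg.pow 2)).const_mul _).add
      ((hW.mul (hf.mul hg)).const_mul _)).integrable (hW.mul (hf.pow 2)).integrable,
      integral_add ((hW.mul (hg.pow 2)).const_mul _).integrable
      ((hW.mul (hf.mul hg)).const_mul _).integrable, integral_const_mul, integral_const_mul] at h2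
    linarith
  have h4 := discrim_le_zero h1
  unfold discrim at h4
  nlinarith

theorem wb2 (hW : EG W) (h0 : ∀ z, 0 ≤ W z) {f g : (ι → ℝ) → ℝ} (hf : EG f) (hg : EG g)
    {A B : ℝ} (hA : 0 ≤ A) (hB : 0 ≤ B) (h1 : ∫ z, W z * f z ^ 2 ∂(gI ι) ≤ A ^ 2)
    (h2 : ∫ z, W z * g z ^ 2 ∂(gI ι) ≤ B ^ 2) : |∫ z, W z * (f z * g z) ∂(gI ι)| ≤ A * B := by
  have h3 := wcs hW h0 hf hg
  have h4 : 0 ≤ ∫ z, W z * g z ^ 2 ∂(gI ι) :=
    integral_nonneg fun z => mul_nonneg (h0 z) (sq_nonneg _)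
  refine abs_le_of_sq_le_sq ?_ (mul_nonneg hA hB)
  calc (∫ z, W z * (f z * g z) ∂(gI ι)) ^ 2 ≤ _ := h3
    _ ≤ A ^ 2 * B ^ 2 := mul_le_mul h1 h2 h4 (sq_nonneg _)
    _ = (A * B) ^ 2 := by ring

theorem wbd (hW : EG W) (h0 : ∀ z, 0 ≤ W z) {f g : (ι → ℝ) → ℝ} (hf : EG f) (hg : EG g)
    {H : ℝ} (h1 : ∀ z, |f z| ≤ H * |g z|) :
    ∫ z, W z * f z ^ 2 ∂(gI ι) ≤ H ^ 2 * ∫ z, W z * g z ^ 2 ∂(gI ι) := by
  rw [← integral_const_mul]
  refine integral_mono (hW.mul (hf.pow 2)).integrable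
    ((hW.mul (hg.pow 2)).const_mul _).integrable fun z => ?_
  have h2 : f z ^ 2 ≤ (H * |g z|) ^ 2 := by
    rw [← sq_abs (f z)]
    exact pow_le_pow_left₀ (abs_nonneg _) (h1 z) 2
  have h3 : (H * |g z|) ^ 2 = H ^ 2 * g z ^ 2 := by rw [mul_pow, sq_abs]
  rw [h3] at h2
  have := mul_le_mul_of_nonneg_left h2 (h0 z)
  show W z * f z ^ 2 ≤ H ^ 2 * (W z * g z ^ 2)
  linarith

theorem wb (hW : EG W) (h0 : ∀ z, 0 ≤ W z) (h1 : ∫ z, W z ∂(gI ι) = 1)
    {f g : (ι → ℝ) → ℝ} (hf : EG f) (hg : EG g)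
    {H B : ℝ} (hH : ∀ z, |f z| ≤ H) (hB : 0 ≤ B)
    (h2 : ∫ z, W z * g z ^ 2 ∂(gI ι) ≤ B ^ 2) : |∫ z, W z * (f z * g z) ∂(gI ι)| ≤ H * B := by
  have hH0 : 0 ≤ H := (abs_nonneg _).trans (hH 0)
  refine wb2 hW h0 hf hg hH0 hB ?_ h2
  have h3 := wbd hW h0 hf (EG.const (ι := ι) 1) (H := H) (fun z => by simpa using hH z)
  simpa [h1] using h3

/-- Weighted integration by parts in the direction `e` against `φ(v·z) N(z)`. -/
theorem st2 {x : ℝ} {u : ι → (ι → ℝ) → ℝ} (fW : FD W (fun j z => x * (W z * u j z)))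
    (eW : EG W) (eu : ∀ j, EG (u j)) {φ φ1 : ℝ → ℝ} (hφ : ∀ t, HasDerivAt φ (φ1 t) t)
    (cφ : CcE φ) (cφ1 : CcE φ1) {N : (ι → ℝ) → ℝ} {N' : ι → (ι → ℝ) → ℝ} (fN : FD N N')
    (eN : EG N) (eN' : ∀ j, EG (N' j)) (v e : ι → ℝ) :
    ∫ z, W z * (dv e z * (φ (dv v z) * N z) - φ (dv v z) * ∑ j, e j * N' j z -
      N z * φ1 (dv v z) * ∑ j, e j * v j -
      x * (∑ j, e j * u j z) * (φ (dv v z) * N z)) ∂(gI ι) = 0 := by
  have eφ := eg_comp_dv cφ v
  have eφ1 := eg_comp_dv cφ1 v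
  have fG := fW.mul ((FD.comp1 hφ (fd_dv v)).mul fN)
  have eG : EG fun z => W z * (φ (dv v z) * N z) := eW.mul (eφ.mul eN)
  have eG' : ∀ j, EG fun z => W z * (φ (dv v z) * N' j z + N z * (φ1 (dv v z) * v j)) +
      (φ (dv v z) * N z) * (x * (W z * u j z)) := fun j =>
    (eW.mul ((eφ.mul (eN' j)).add (eN.mul (eg_mul_right eφ1 (v j))))).add
      ((eφ.mul eN).mul ((eW.mul (eu j)).const_mul x))
  have h1 := stein_dir fG eG eG' e
  have h2 : ∫ z, (dv e z * (W z * (φ (dv v z) * N z)) - ∑ j, e j * (W z * (φ (dv v z) * N' j z +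
      N z * (φ1 (dv v z) * v j)) + (φ (dv v z) * N z) * (x * (W z * u j z)))) ∂(gI ι) = 0 := by
    rw [integral_sub ((eg_dv e).mul eG).integrable
      (EG.sum Finset.univ fun j _ => (eG' j).const_mul (e j)).integrable, h1, sub_self]
  rw [← h2]
  congr 1
  funext z
  have h3 : ∑ j, e j * (W z * (φ (dv v z) * N' j z + N z * (φ1 (dv v z) * v j)) +
      (φ (dv v z) * N z) * (x * (W z * u j z))) = W z * (φ (dv v z) * ∑ j, e j * N' j z) +
      W z * (N z * φ1 (dv v z) * ∑ j, e j * v j) +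
      W z * (x * (∑ j, e j * u j z) * (φ (dv v z) * N z)) := by
    simp only [Finset.mul_sum, Finset.sum_mul, ← Finset.sum_add_distrib]
    exact Finset.sum_congr rfl fun j _ => by ring
  rw [h3]
  ring

end W

/-- Sums of squares after projection. -/
lemma perp_le {v : ι → ℝ} (hv : ∑ i, v i ^ 2 = 1) (y : ι → ℝ) :
    ∑ j, (y j - v j * ∑ k, v k * y k) ^ 2 ≤ ∑ j, y j ^ 2 := by
  obtain ⟨s, hs⟩ : ∃ s, s = ∑ k, v k * y k := ⟨_, rfl⟩
  rw [← hs]
  have h1 : ∑ j, (y j - v j * s) ^ 2 = ∑ j, y j ^ 2 - 2 * s * ∑ k, v k * y k +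
      s ^ 2 * ∑ i, v i ^ 2 := by
    simp only [Finset.mul_sum, ← Finset.sum_sub_distrib, ← Finset.sum_add_distrib]
    exact Finset.sum_congr rfl fun j _ => by ring
  rw [h1, hv, ← hs]
  nlinarith [sq_nonneg s]

lemma perp_shift {v : ι → ℝ} (hv : ∑ i, v i ^ 2 = 1) (y : ι → ℝ) (c : ℝ) (j : ι) :
    (y j + c * v j) - v j * ∑ k, v k * (y k + c * v k) = y j - v j * ∑ k, v k * y k := by
  have : ∑ k, v k * (y k + c * v k) = ∑ k, v k * y k + c * ∑ k, v k ^ 2 := by
    rw [Finset.mul_sum, ← Finset.sum_add_distrib]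
    exact Finset.sum_congr rfl fun k _ => by ring
  rw [this, hv]; ring

/-- A direction of a small field. -/
lemma dirb {W : (ι → ℝ) → ℝ} (hW : EG W) (h0 : ∀ z, 0 ≤ W z) {y : ι → (ι → ℝ) → ℝ}
    (hy : ∀ j, EG (y j)) {ε : ℝ} (h : ∫ z, W z * ∑ j, y j z ^ 2 ∂(gI ι) ≤ ε) (e : ι → ℝ) :
    ∫ z, W z * (∑ j, e j * y j z) ^ 2 ∂(gI ι) ≤ (∑ j, e j ^ 2) * ε := by
  have hS : EG fun z => ∑ j, y j z ^ 2 := EG.sum Finset.univ fun j _ => (hy j).pow 2
  have hL : EG fun z => ∑ j, e j * y j z := EG.sum Finset.univ fun j _ => (hy j).const_mul _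
  have h1 : ∫ z, W z * (∑ j, e j * y j z) ^ 2 ∂(gI ι) ≤
      ∫ z, (∑ j, e j ^ 2) * (W z * ∑ j, y j z ^ 2) ∂(gI ι) := by
    refine integral_mono (hW.mul (hL.pow 2)).integrable
      ((hW.mul hS).const_mul _).integrable fun z => ?_
    have h2 := Finset.sum_mul_sq_le_sq_mul_sq Finset.univ e (fun j => y j z)
    have := mul_le_mul_of_nonneg_left h2 (h0 z)
    show W z * (∑ j, e j * y j z) ^ 2 ≤ (∑ j, e j ^ 2) * (W z * ∑ j, y j z ^ 2)
    linarith
  rw [integral_const_mul] at h1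
  exact h1.trans (mul_le_mul_of_nonneg_left h (Finset.sum_nonneg fun j _ => sq_nonneg _))

end Vale.Agent.P146.H246.Mc
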