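import Vale.Agent.P146.H246.Mc2

/-!
Maximal correlation of two functions of nearly one Gaussian variable, part 3: the data and the
profile of the first function.
-/

open MeasureTheory ProbabilityTheory Filter Topology

namespace Vale.Agent.P146.H246.Mc

open Vale.Agent.P157.Lv Vale.Agent.P146.H329

set_option linter.unusedSectionVars false

variable {ι : Type} [Fintype ι] [DecidableEq ι]

/-- The data of the maximal correlation theorem. -/
structure Dat (x Λ : ℝ) (W N1 N2 : (ι → ℝ) → ℝ) (u n1 n2 : ι → (ι → ℝ) → ℝ) : Prop where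
  pdW : ∀ e, PD e W (fun z => x * (W z * u e z))
  pd1 : ∀ e, PD e N1 (n1 e)
  pd2 : ∀ e, PD e N2 (n2 e)
  cu : ∀ e, Continuous (u e)
  cn1 : ∀ e, Continuous (n1 e)
  cn2 : ∀ e, Continuous (n2 e)
  egW : EG W
  pos : ∀ z, 0 < W z
  one : ∫ z, W z ∂(gI ι) = 1
  ev : ∀ z, W (-z) = W z
  od1 : ∀ z, N1 (-z) = -N1 z
  od2 : ∀ z, N2 (-z) = -N2 z
  b1 : ∀ z, |N1 z| ≤ 2
  b2 : ∀ z, |N2 z| ≤ 2
  bu : ∀ z, ∑ e, u e z ^ 2 ≤ Λ ^ 2
  bn1 : ∀ z, ∑ e, n1 e z ^ 2 ≤ Λ ^ 2
  bn2 : ∀ z, ∑ e, n2 e z ^ 2 ≤ Λ ^ 2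

lemma le_of_sum_sq {Λ : ℝ} (hΛ : 0 ≤ Λ) {y : ι → ℝ} (h : ∑ e, y e ^ 2 ≤ Λ ^ 2) (e : ι) :
    |y e| ≤ Λ := by
  refine abs_le_of_sq_le_sq ?_ hΛ
  exact (Finset.single_le_sum (f := fun e => y e ^ 2) (fun i _ => sq_nonneg _)
    (Finset.mem_univ e)).trans h

section

variable {x Λ : ℝ} {W N1 N2 : (ι → ℝ) → ℝ} {u n1 n2 : ι → (ι → ℝ) → ℝ}

namespace Dat

lemma eu (D : Dat x Λ W N1 N2 u n1 n2) (hΛ : 0 ≤ Λ) (e : ι) : EG (u e) :=
  EG.of_bdd (D.cu e).measurable fun z => le_of_sum_sq hΛ (D.bu z) e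

lemma en1 (D : Dat x Λ W N1 N2 u n1 n2) (hΛ : 0 ≤ Λ) (e : ι) : EG (n1 e) :=
  EG.of_bdd (D.cn1 e).measurable fun z => le_of_sum_sq hΛ (D.bn1 z) e

lemma en2 (D : Dat x Λ W N1 N2 u n1 n2) (hΛ : 0 ≤ Λ) (e : ι) : EG (n2 e) :=
  EG.of_bdd (D.cn2 e).measurable fun z => le_of_sum_sq hΛ (D.bn2 z) e

lemma cW (D : Dat x Λ W N1 N2 u n1 n2) : Continuous W := by
  have h1 : ∀ e, PD e (fun z => Real.log (W z)) (fun z => x * u e z) := fun e =>
    ((D.pdW e).log fun y => (D.pos y).ne').congr fun y => by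
      have := (D.pos y).ne'
      field_simp
  have h2 := (fd_of_pd h1 fun e => continuous_const.mul (D.cu e)).cont
  have h3 : W = fun z => Real.exp (Real.log (W z)) := by
    funext z
    rw [Real.exp_log (D.pos z)]
  rw [h3]
  exact Real.continuous_exp.comp h2

lemma fW (D : Dat x Λ W N1 N2 u n1 n2) : FD W (fun j z => x * (W z * u j z)) :=
  fd_of_pd D.pdW fun e => continuous_const.mul (D.cW.mul (D.cu e))

lemma f1 (D : Dat x Λ W N1 N2 u n1 n2) : FD N1 n1 := fd_of_pd D.pd1 D.cn1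

lemma f2 (D : Dat x Λ W N1 N2 u n1 n2) : FD N2 n2 := fd_of_pd D.pd2 D.cn2

lemma e1 (D : Dat x Λ W N1 N2 u n1 n2) : EG N1 := EG.of_bdd D.f1.cont.measurable D.b1

lemma e2 (D : Dat x Λ W N1 N2 u n1 n2) : EG N2 := EG.of_bdd D.f2.cont.measurable D.b2

lemma fR (D : Dat x Λ W N1 N2 u n1 n2) :
    FD (fun z => √(W z)) (fun j z => x / 2 * (√(W z) * u j z)) := by
  intro y
  refine ((D.fW y).sqrt (D.pos y).ne').congr_fderiv ?_
  refine clm_ext fun i => ?_
  simp only [_root_.smul_apply, sum_proj_single, smul_eq_mul]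
  have h1 : 0 < √(W y) := Real.sqrt_pos.2 (D.pos y)
  have h2 : √(W y) * √(W y) = W y := Real.mul_self_sqrt (D.pos y).le
  rw [one_div, ← div_eq_inv_mul, div_eq_iff (by positivity)]
  linear_combination (-(x * u i y)) * h2

lemma eR (D : Dat x Λ W N1 N2 u n1 n2) : EG fun z => √(W z) := by
  refine ((EG.const (ι := ι) 1).add D.egW).mono (D.fR.cont.measurable) fun z => ?_
  have h1 := (D.pos z).le
  rw [abs_of_nonneg (Real.sqrt_nonneg _), abs_of_nonneg (by linarith)]
  nlinarith [Real.sq_sqrt h1, Real.sqrt_nonneg (W z), sq_nonneg (√(W z) - 1)]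

end Dat

lemma pr_even {F : (ι → ℝ) → ℝ} (hF : EG F) (h : ∀ z, F (-z) = F z) (v : ι → ℝ) (t : ℝ) :
    pr v F (-t) = pr v F t := by
  unfold pr
  rw [← int_neg (eg_tp hF v (-t))]
  simp only [tp_neg, h]

lemma pr_pos {F : (ι → ℝ) → ℝ} (hF : EG F) (h : ∀ z, 0 < F z) (v : ι → ℝ) (t : ℝ) :
    0 < pr v F t := by
  unfold pr
  rw [integral_pos_iff_support_of_nonneg (fun z => (h _).le) (eg_tp hF v t).integrable]
  have : Function.support (fun x => F (tp v x t)) = Set.univ := by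
    ext z
    simp [Function.mem_support, (h (tp v z t)).ne']
  rw [this]
  simp

/-- The profile of the first function. -/
theorem exF (D : Dat x Λ W N1 N2 u n1 n2) (hΛ : 0 ≤ Λ) (hx : 0 ≤ x) (hx1 : x ≤ 1)
    {v : ι → ℝ} (hv : ∑ i, v i ^ 2 = 1) {σ : ℝ} {U1 : (ι → ℝ) → ℝ} (eU : EG U1) {ε : ℝ}
    (E1 : ∫ z, W z * ∑ e, (u e z - N1 z * (σ * v e)) ^ 2 ∂(gI ι) ≤ ε)
    (E2 : ∫ z, W z * ∑ e, (n1 e z - U1 z * (σ * v e)) ^ 2 ∂(gI ι) ≤ ε) :
    ∃ F : ℝ → ℝ, Continuous F ∧ (∀ t, F (-t) = -F t) ∧ (∀ t, |F t| ≤ 2) ∧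
      ∫ z, W z * (N1 z - F (dv v z)) ^ 2 ∂(gI ι) ≤ 16 * ε := by
  have fR := D.fR
  have eR := D.eR
  have eu := D.eu hΛ
  have en1 := D.en1 hΛ
  have e1 := D.e1
  obtain ⟨R, hR⟩ : ∃ R : (ι → ℝ) → ℝ, R = fun z => √(W z) := ⟨_, rfl⟩
  have hR0 : ∀ z, 0 < R z := fun z => by rw [hR]; exact Real.sqrt_pos.2 (D.pos z)
  have hRR : ∀ z, R z ^ 2 = W z := fun z => by rw [hR]; exact Real.sq_sqrt (D.pos z).le
  have fR' : FD R (fun j z => x / 2 * (R z * u j z)) := by rw [hR]; exact fR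
  rw [← hR] at eR
  have Rev : ∀ z, R (-z) = R z := fun z => by rw [hR]; simp only [D.ev]
  have fP := D.f1.mul fR'
  have eR' : ∀ j, EG fun z => x / 2 * (R z * u j z) := fun j => (eR.mul (eu j)).const_mul _
  have eP : EG fun z => N1 z * R z := e1.mul eR
  have eP' : ∀ j, EG fun z => N1 z * (x / 2 * (R z * u j z)) + R z * n1 j z := fun j =>
    (e1.mul (eR' j)).add (eR.mul (en1 j))
  obtain ⟨p, hp⟩ : ∃ p, p = pr v R := ⟨_, rfl⟩
  obtain ⟨P, hP⟩ : ∃ P, P = pr v (fun z => N1 z * R z) := ⟨_, rfl⟩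
  have p0 : ∀ t, 0 < p t := fun t => by rw [hp]; exact pr_pos eR hR0 v t
  have cp : Continuous p := by rw [hp]; exact pr_cont eR fR'.cont v
  have cP : Continuous P := by rw [hP]; exact pr_cont eP fP.cont v
  have Pb : ∀ t, |P t| ≤ 2 * p t := by
    intro t
    rw [hP, hp]
    unfold pr
    rw [← integral_const_mul]
    calc |∫ x, N1 (tp v x t) * R (tp v x t) ∂(gI ι)|
        ≤ ∫ x, |N1 (tp v x t) * R (tp v x t)| ∂(gI ι) := by
          have := norm_integral_le_integral_norm (μ := gI ι)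
            (fun x => N1 (tp v x t) * R (tp v x t))
          simpa [Real.norm_eq_abs] using this
      _ ≤ ∫ x, 2 * R (tp v x t) ∂(gI ι) := by
          refine integral_mono ((eg_tp eP v t).abs).integrable
            ((eg_tp eR v t).const_mul 2).integrable fun z => ?_
          show |N1 (tp v z t) * R (tp v z t)| ≤ 2 * R (tp v z t)
          rw [abs_mul, abs_of_pos (hR0 _)]
          exact mul_le_mul_of_nonneg_right (D.b1 _) (hR0 _).le
  obtain ⟨F, hF⟩ : ∃ F : ℝ → ℝ, ∀ t, F t = P t / p t := ⟨_, fun _ => rfl⟩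
  have hFf : F = fun t => P t / p t := funext hF
  have cF : Continuous F := by
    rw [hFf]
    exact cP.div cp fun t => (p0 t).ne'
  have bF : ∀ t, |F t| ≤ 2 := fun t => by
    rw [hF, abs_div, abs_of_pos (p0 t), div_le_iff₀ (p0 t)]
    exact Pb t
  refine ⟨F, cF, fun t => ?_, bF, ?_⟩
  · rw [hF, hF, hP, hp, pr_even eR Rev, pr_odd eP (fun z => by rw [D.od1, Rev]; ring)]
    ring
  · have q1 := pr_poincare hv fR' eR eR'
    have q2 := pr_poincare hv fP eP eP'
    rw [← hp] at q1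
    rw [← hP] at q2
    have eF : EG fun z => F (dv v z) := eg_comp_dv (cce_of cF ⟨2, 0, by norm_num, le_rfl,
      fun t => by simpa using bF t⟩) v
    have ep : EG fun z => p (dv v z) := by
      rw [hp]; exact eg_comp_dv (pr_cce eR fR'.cont v) v
    have ePd : EG fun z => P (dv v z) := by
      rw [hP]; exact eg_comp_dv (pr_cce eP fP.cont v) v
    have eUu : ∀ j, EG fun z => u j z - N1 z * (σ * v j) := fun j =>
      (eu j).sub (eg_mul_right e1 _)
    have eUn : ∀ j, EG fun z => n1 j z - U1 z * (σ * v j) := fun j =>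
      (en1 j).sub (eg_mul_right eU _)
    -- first
    have q3 : ∑ j, ∫ z, (x / 2 * (R z * u j z) - v j * ∑ k, v k * (x / 2 * (R z * u k z))) ^ 2
        ∂(gI ι) ≤ x ^ 2 / 4 * ε := by
      have eT : ∀ j, EG fun z => x / 2 * (R z * u j z) -
          v j * ∑ k, v k * (x / 2 * (R z * u k z)) := fun j =>
        (eR' j).sub ((EG.sum Finset.univ fun k _ => (eR' k).const_mul _).const_mul _)
      rw [← integral_finsetSum _ fun j _ => ((eT j).pow 2).integrable]
      have : ∫ z, ∑ j, (x / 2 * (R z * u j z) - v j * ∑ k, v k * (x / 2 * (R z * u k z))) ^ 2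
          ∂(gI ι) ≤ ∫ z, x ^ 2 / 4 * (W z * ∑ e, (u e z - N1 z * (σ * v e)) ^ 2) ∂(gI ι) := by
        refine integral_mono (EG.sum Finset.univ fun j _ => (eT j).pow 2).integrable
          ((D.egW.mul (EG.sum Finset.univ fun j _ => (eUu j).pow 2)).const_mul _).integrable
          fun z => ?_
        show ∑ j, (x / 2 * (R z * u j z) - v j * ∑ k, v k * (x / 2 * (R z * u k z))) ^ 2 ≤
          x ^ 2 / 4 * (W z * ∑ e, (u e z - N1 z * (σ * v e)) ^ 2)
        have h1 : ∀ j, x / 2 * (R z * u j z) - v j * ∑ k, v k * (x / 2 * (R z * u k z)) =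
            x / 2 * R z * ((u j z - N1 z * (σ * v j)) -
              v j * ∑ k, v k * (u k z - N1 z * (σ * v k))) := by
          intro j
          have h2 := perp_shift hv (fun j => u j z) (-(N1 z * σ)) j
          have h3 : ∀ k, u k z - N1 z * (σ * v k) = u k z + -(N1 z * σ) * v k := fun k => by ring
          simp only [h3]
          rw [h2]
          have h4 : ∑ k, v k * (x / 2 * (R z * u k z)) = x / 2 * R z * ∑ k, v k * u k z := by
            rw [Finset.mul_sum]
            exact Finset.sum_congr rfl fun k _ => by ring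
          rw [h4]; ring
        simp only [h1, mul_pow]
        rw [← Finset.mul_sum]
        have h5 := perp_le hv (fun j => u j z - N1 z * (σ * v j))
        have h6 : 0 ≤ (x / 2) ^ 2 * R z ^ 2 := by positivity
        refine (mul_le_mul_of_nonneg_left h5 h6).trans (le_of_eq ?_)
        rw [hRR]; ring
      refine this.trans ?_
      rw [integral_const_mul]
      exact mul_le_mul_of_nonneg_left E1 (by positivity)
    -- second
    have q4 : ∑ j, ∫ z, ((N1 z * (x / 2 * (R z * u j z)) + R z * n1 j z) -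
        v j * ∑ k, v k * (N1 z * (x / 2 * (R z * u k z)) + R z * n1 k z)) ^ 2
        ∂(gI ι) ≤ 4 * ε := by
      have eT : ∀ j, EG fun z => (N1 z * (x / 2 * (R z * u j z)) + R z * n1 j z) -
          v j * ∑ k, v k * (N1 z * (x / 2 * (R z * u k z)) + R z * n1 k z) := fun j =>
        (eP' j).sub ((EG.sum Finset.univ fun k _ => (eP' k).const_mul _).const_mul _)
      rw [← integral_finsetSum _ fun j _ => ((eT j).pow 2).integrable]
      have : ∫ z, ∑ j, ((N1 z * (x / 2 * (R z * u j z)) + R z * n1 j z) -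
          v j * ∑ k, v k * (N1 z * (x / 2 * (R z * u k z)) + R z * n1 k z)) ^ 2
          ∂(gI ι) ≤ ∫ z, (2 * (W z * ∑ e, (u e z - N1 z * (σ * v e)) ^ 2) +
            2 * (W z * ∑ e, (n1 e z - U1 z * (σ * v e)) ^ 2)) ∂(gI ι) := by
        refine integral_mono (EG.sum Finset.univ fun j _ => (eT j).pow 2).integrable
          (((D.egW.mul (EG.sum Finset.univ fun j _ => (eUu j).pow 2)).const_mul _).add
          ((D.egW.mul (EG.sum Finset.univ fun j _ => (eUn j).pow 2)).const_mul _)).integrable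
          fun z => ?_
        show ∑ j, ((N1 z * (x / 2 * (R z * u j z)) + R z * n1 j z) -
          v j * ∑ k, v k * (N1 z * (x / 2 * (R z * u k z)) + R z * n1 k z)) ^ 2 ≤
          2 * (W z * ∑ e, (u e z - N1 z * (σ * v e)) ^ 2) +
            2 * (W z * ∑ e, (n1 e z - U1 z * (σ * v e)) ^ 2)
        obtain ⟨y, hy⟩ : ∃ y : ι → ℝ, ∀ j, y j = N1 z * (x / 2) * (u j z - N1 z * (σ * v j)) +
          (n1 j z - U1 z * (σ * v j)) := ⟨_, fun _ => rfl⟩
        have h1 : ∀ j, (N1 z * (x / 2 * (R z * u j z)) + R z * n1 j z) -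
            v j * ∑ k, v k * (N1 z * (x / 2 * (R z * u k z)) + R z * n1 k z) =
            R z * (y j - v j * ∑ k, v k * y k) := by
          intro j
          have h2 := perp_shift hv y (N1 z * (x / 2) * (N1 z * σ) + U1 z * σ) j
          have h3 : ∀ k, y k + (N1 z * (x / 2) * (N1 z * σ) + U1 z * σ) * v k =
              N1 z * (x / 2) * u k z + n1 k z := fun k => by rw [hy]; ring
          simp only [h3] at h2
          rw [← h2]
          have h4 : ∑ k, v k * (N1 z * (x / 2 * (R z * u k z)) + R z * n1 k z) =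
              R z * ∑ k, v k * (N1 z * (x / 2) * u k z + n1 k z) := by
            rw [Finset.mul_sum]
            exact Finset.sum_congr rfl fun k _ => by ring
          rw [h4]; ring
        simp only [h1, mul_pow]
        rw [← Finset.mul_sum, hRR]
        have h5 := perp_le hv y
        have h6 : ∑ j, y j ^ 2 ≤ 2 * ∑ e, (u e z - N1 z * (σ * v e)) ^ 2 +
            2 * ∑ e, (n1 e z - U1 z * (σ * v e)) ^ 2 := by
          rw [Finset.mul_sum, Finset.mul_sum, ← Finset.sum_add_distrib]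
          refine Finset.sum_le_sum fun j _ => ?_
          rw [hy]
          obtain ⟨A, hA⟩ : ∃ A, A = u j z - N1 z * (σ * v j) := ⟨_, rfl⟩
          obtain ⟨B, hB⟩ : ∃ B, B = n1 j z - U1 z * (σ * v j) := ⟨_, rfl⟩
          rw [← hA, ← hB]
          have h7 : (N1 z * (x / 2)) ^ 2 ≤ 1 := by
            have h8 : |N1 z * (x / 2)| ≤ 1 := by
              rw [abs_mul, abs_of_nonneg (by positivity : 0 ≤ x / 2)]
              nlinarith [D.b1 z, abs_nonneg (N1 z)]
            exact (sq_le_one_iff_abs_le_one _).2 h8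
          have h9 : (N1 z * (x / 2) * A) ^ 2 ≤ A ^ 2 := by
            rw [mul_pow]
            nlinarith [sq_nonneg A]
          nlinarith [sq_nonneg (N1 z * (x / 2) * A - B)]
        have h10 := mul_le_mul_of_nonneg_left (h5.trans h6) (D.pos z).le
        linarith
      refine this.trans ?_
      rw [integral_add ((D.egW.mul (EG.sum Finset.univ fun j _ => (eUu j).pow 2)).const_mul
        _).integrable ((D.egW.mul (EG.sum Finset.univ fun j _ => (eUn j).pow 2)).const_mul
        _).integrable, integral_const_mul, integral_const_mul]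
      linarith
    -- combination
    have q5 : ∫ z, W z * (N1 z - F (dv v z)) ^ 2 ∂(gI ι) ≤
        ∫ z, (2 * (N1 z * R z - P (dv v z)) ^ 2 + 8 * (R z - p (dv v z)) ^ 2) ∂(gI ι) := by
      refine integral_mono (D.egW.mul ((e1.sub eF).pow 2)).integrable
        ((((eP.sub ePd).pow 2).const_mul _).add (((eR.sub ep).pow 2).const_mul _)).integrable
        fun z => ?_
      show W z * (N1 z - F (dv v z)) ^ 2 ≤
        2 * (N1 z * R z - P (dv v z)) ^ 2 + 8 * (R z - p (dv v z)) ^ 2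
      have h1 : P (dv v z) = F (dv v z) * p (dv v z) := by
        rw [hF]; field_simp [(p0 (dv v z)).ne']
      rw [h1, ← hRR]
      obtain ⟨f, hf⟩ : ∃ f, f = F (dv v z) := ⟨_, rfl⟩
      obtain ⟨q, hq⟩ : ∃ q, q = p (dv v z) := ⟨_, rfl⟩
      have h2 : |f| ≤ 2 := by rw [hf]; exact bF _
      rw [← hf, ← hq]
      have h3 : f ^ 2 ≤ 4 := by
        rw [← sq_abs]; nlinarith [abs_nonneg f]
      have h4 : R z ^ 2 * (N1 z - f) ^ 2 = ((N1 z * R z - f * q) - f * (R z - q)) ^ 2 := by ring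
      rw [h4]
      have h5 : (f * (R z - q)) ^ 2 ≤ 4 * (R z - q) ^ 2 := by
        rw [mul_pow]; nlinarith [sq_nonneg (R z - q)]
      nlinarith [sq_nonneg ((N1 z * R z - f * q) + f * (R z - q))]
    refine q5.trans ?_
    rw [integral_add (((eP.sub ePd).pow 2).const_mul _).integrable
      (((eR.sub ep).pow 2).const_mul _).integrable, integral_const_mul, integral_const_mul]
    have q6 := q1.trans q3
    have q7 := q2.trans q4
    have hε : 0 ≤ ε := le_trans (integral_nonneg fun z => mul_nonneg (D.pos z).le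
      (Finset.sum_nonneg fun j _ => sq_nonneg _)) E1
    have hx2 : x ^ 2 ≤ 1 := by nlinarith
    nlinarith

end

end Vale.Agent.P146.H246.Mc
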