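import Vale.Agent.P146.H246.Mc3

/-!
Maximal correlation of two functions of nearly one Gaussian variable, part 4: the weighted identity
for `k` and the comparison of its norm with the norm of the first function.
-/

open MeasureTheory ProbabilityTheory Filter Topology

namespace Vale.Agent.P146.H246.Mc

open Vale.Agent.P157.Lv Vale.Agent.P146.H329

set_option linter.unusedSectionVars false

variable {ι : Type} [Fintype ι] [DecidableEq ι]

section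

variable {W : (ι → ℝ) → ℝ}

lemma wadd (hW : EG W) {f g : (ι → ℝ) → ℝ} (hf : EG f) (hg : EG g) :
    ∫ z, W z * (f z + g z) ∂(gI ι) = ∫ z, W z * f z ∂(gI ι) + ∫ z, W z * g z ∂(gI ι) := by
  rw [← integral_add (hW.mul hf).integrable (hW.mul hg).integrable]
  congr 1; funext z; ring

lemma wsub (hW : EG W) {f g : (ι → ℝ) → ℝ} (hf : EG f) (hg : EG g) :
    ∫ z, W z * (f z - g z) ∂(gI ι) = ∫ z, W z * f z ∂(gI ι) - ∫ z, W z * g z ∂(gI ι) := by
  rw [← integral_sub (hW.mul hf).integrable (hW.mul hg).integrable]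
  congr 1; funext z; ring

lemma wcm {f : (ι → ℝ) → ℝ} (c : ℝ) :
    ∫ z, W z * (c * f z) ∂(gI ι) = c * ∫ z, W z * f z ∂(gI ι) := by
  rw [← integral_const_mul]
  congr 1; funext z; ring

lemma wmono (hW : EG W) (h0 : ∀ z, 0 ≤ W z) {f g : (ι → ℝ) → ℝ} (hf : EG f) (hg : EG g)
    (h : ∀ z, f z ≤ g z) : ∫ z, W z * f z ∂(gI ι) ≤ ∫ z, W z * g z ∂(gI ι) :=
  integral_mono (hW.mul hf).integrable (hW.mul hg).integrable fun z =>
    mul_le_mul_of_nonneg_left (h z) (h0 z)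

lemma idn_num {x a η I1 I2 I3 I4 I5 : ℝ} (hx : 0 ≤ x) (hx1 : x ≤ 1 / 64)
    (ha0 : 0 ≤ a) (ha1 : a ≤ 1 / 64) (hη : 0 ≤ η) (r1 : |I1| ≤ (64 * η) * 17)
    (r2 : |I2| ≤ 363 * η) (r3 : |I3| ≤ 363 * (4 * η)) (r4 : |I4| ≤ 1024 * (4 * η))
    (r5 : |I5| ≤ 512 * η) :
    |-(2 * a * I1) + x * I2 + 2 * a * I3 - a ^ 2 * I4 - a * x * I5| ≤ 90 * η := by
  have s1 : |2 * a * I1| ≤ 2176 * (a * η) := by
    rw [abs_mul, abs_of_nonneg (by positivity : 0 ≤ 2 * a)]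
    exact (mul_le_mul_of_nonneg_left r1 (by positivity)).trans (le_of_eq (by ring))
  have s2 : |x * I2| ≤ 363 * (x * η) := by
    rw [abs_mul, abs_of_nonneg hx]
    exact (mul_le_mul_of_nonneg_left r2 hx).trans (le_of_eq (by ring))
  have s3 : |2 * a * I3| ≤ 2904 * (a * η) := by
    rw [abs_mul, abs_of_nonneg (by positivity : 0 ≤ 2 * a)]
    exact (mul_le_mul_of_nonneg_left r3 (by positivity)).trans (le_of_eq (by ring))
  have s4 : |a ^ 2 * I4| ≤ 4096 * (a * (a * η)) := by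
    rw [abs_mul, abs_of_nonneg (by positivity : 0 ≤ a ^ 2)]
    exact (mul_le_mul_of_nonneg_left r4 (by positivity)).trans (le_of_eq (by ring))
  have s5 : |a * x * I5| ≤ 512 * (a * (x * η)) := by
    rw [abs_mul, abs_of_nonneg (by positivity : 0 ≤ a * x)]
    exact (mul_le_mul_of_nonneg_left r5 (by positivity)).trans (le_of_eq (by ring))
  have p1 : a * η ≤ 1 / 64 * η := mul_le_mul_of_nonneg_right ha1 hη
  have p2 : x * η ≤ 1 / 64 * η := mul_le_mul_of_nonneg_right hx1 hη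
  have p3 : a * (a * η) ≤ 1 / 64 * (1 / 64 * η) :=
    mul_le_mul ha1 p1 (mul_nonneg ha0 hη) (by norm_num)
  have p4 : a * (x * η) ≤ 1 / 64 * (1 / 64 * η) :=
    mul_le_mul ha1 p2 (mul_nonneg hx hη) (by norm_num)
  rw [abs_le] at s1 s2 s3 s4 s5 ⊢
  constructor <;> linarith [s1.1, s1.2, s2.1, s2.2, s3.1, s3.2, s4.1, s4.2, s5.1, s5.2]

/-- The weighted identity, abstract form. -/
theorem idn0 (eW : EG W) (h0 : ∀ z, 0 ≤ W z) (hW1 : ∫ z, W z ∂(gI ι) = 1)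
    {T H H1 f N C V : (ι → ℝ) → ℝ} (eT : EG T) (eH : EG H) (eH1 : EG H1) (ef : EG f) (eN : EG N)
    (eC : EG C) (eV : EG V) {x σ a η : ℝ} (ha : a = x * σ) (hx : 0 ≤ x) (hx1 : x ≤ 1 / 64)
    (ha0 : 0 ≤ a) (ha1 : a ≤ 1 / 64) (hη : 0 ≤ η)
    (P1 : ∫ z, W z * (T z * (H z ^ 2 * T z) - H z ^ 2 - T z * (2 * H z * H1 z) -
      x * V z * (H z ^ 2 * T z)) ∂(gI ι) = 0)
    (P2 : ∫ z, W z * (T z * (H z ^ 2 * N z) - H z ^ 2 * C z - N z * (2 * H z * H1 z) -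
      x * V z * (H z ^ 2 * N z)) ∂(gI ι) = 0)
    (bT : ∫ z, W z * T z ^ 2 ∂(gI ι) ≤ 2) (bH : ∀ z, |H z| ≤ 16)
    (bH1 : ∫ z, W z * H1 z ^ 2 ∂(gI ι) ≤ 17 ^ 2) (bN : ∀ z, |N z| ≤ 2) (bf : ∀ z, |f z| ≤ 2)
    (hd : ∫ z, W z * (N z - f z) ^ 2 ∂(gI ι) ≤ (4 * η) ^ 2)
    (hw : ∫ z, W z * (V z - N z * σ) ^ 2 ∂(gI ι) ≤ η ^ 2) :
    |∫ z, W z * (H z * (T z - a * f z) - H1 z) ^ 2 ∂(gI ι) -
      (∫ z, W z * H1 z ^ 2 ∂(gI ι) + ∫ z, W z * H z ^ 2 ∂(gI ι) -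
        a * ∫ z, W z * (H z ^ 2 * C z) ∂(gI ι))| ≤ 90 * η := by
  have ed : EG fun z => N z - f z := eN.sub ef
  have ew : EG fun z => V z - N z * σ := eV.sub (eg_mul_right eN σ)
  obtain ⟨d, hdd⟩ : ∃ d : (ι → ℝ) → ℝ, d = fun z => N z - f z := ⟨_, rfl⟩
  obtain ⟨w, hww⟩ : ∃ w : (ι → ℝ) → ℝ, w = fun z => V z - N z * σ := ⟨_, rfl⟩
  rw [← hdd] at ed
  rw [← hww] at ew
  have hd' : ∫ z, W z * d z ^ 2 ∂(gI ι) ≤ (4 * η) ^ 2 := by rw [hdd]; exact hd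
  have hw' : ∫ z, W z * w z ^ 2 ∂(gI ι) ≤ η ^ 2 := by rw [hww]; exact hw
  -- remainders
  have r1 : |∫ z, W z * ((H z * d z) * H1 z) ∂(gI ι)| ≤ (64 * η) * 17 := by
    refine wb2 eW h0 (eH.mul ed) eH1 (by positivity) (by norm_num) ?_ bH1
    have := wbd eW h0 (eH.mul ed) ed (H := 16) fun z => by
      rw [abs_mul]; exact mul_le_mul_of_nonneg_right (bH z) (abs_nonneg _)
    nlinarith
  have b363 : ∫ z, W z * (H z ^ 2 * T z) ^ 2 ∂(gI ι) ≤ 363 ^ 2 := by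
    have := wbd eW h0 ((eH.pow 2).mul eT) eT (H := 256) fun z => by
      rw [abs_mul, abs_of_nonneg (sq_nonneg (H z))]
      refine mul_le_mul_of_nonneg_right ?_ (abs_nonneg _)
      rw [← sq_abs]; nlinarith [bH z, abs_nonneg (H z)]
    nlinarith
  have r2 : |∫ z, W z * ((H z ^ 2 * T z) * w z) ∂(gI ι)| ≤ 363 * η :=
    wb2 eW h0 ((eH.pow 2).mul eT) ew (by norm_num) hη b363 hw'
  have r3 : |∫ z, W z * ((H z ^ 2 * T z) * d z) ∂(gI ι)| ≤ 363 * (4 * η) :=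
    wb2 eW h0 ((eH.pow 2).mul eT) ed (by norm_num) (by positivity) b363 hd'
  have bH2 : ∀ z, H z ^ 2 ≤ 256 := fun z => by
    rw [← sq_abs]; nlinarith [bH z, abs_nonneg (H z)]
  have r4 : |∫ z, W z * ((H z ^ 2 * (N z + f z)) * d z) ∂(gI ι)| ≤ 1024 * (4 * η) := by
    refine wb eW h0 hW1 ((eH.pow 2).mul (eN.add ef)) ed (fun z => ?_) (by positivity) hd'
    rw [abs_mul, abs_of_nonneg (sq_nonneg (H z))]
    have h1 : |N z + f z| ≤ 4 := (abs_add_le _ _).trans (by linarith [bN z, bf z])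
    calc H z ^ 2 * |N z + f z| ≤ 256 * 4 :=
          mul_le_mul (bH2 z) h1 (abs_nonneg _) (by norm_num)
      _ = 1024 := by norm_num
  have r5 : |∫ z, W z * ((H z ^ 2 * N z) * w z) ∂(gI ι)| ≤ 512 * η := by
    refine wb eW h0 hW1 ((eH.pow 2).mul eN) ew (fun z => ?_) hη hw'
    rw [abs_mul, abs_of_nonneg (sq_nonneg (H z))]
    calc H z ^ 2 * |N z| ≤ 256 * 2 :=
          mul_le_mul (bH2 z) (bN z) (abs_nonneg _) (by norm_num)
      _ = 512 := by norm_num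
  -- the identity
  have e1 : EG fun z => H1 z ^ 2 + H z ^ 2 := (eH1.pow 2).add (eH.pow 2)
  have eP1 : EG fun z => T z * (H z ^ 2 * T z) - H z ^ 2 - T z * (2 * H z * H1 z) -
      x * V z * (H z ^ 2 * T z) :=
    (((eT.mul ((eH.pow 2).mul eT)).sub (eH.pow 2)).sub (eT.mul ((eH.const_mul 2).mul eH1))).sub
      ((eV.const_mul x).mul ((eH.pow 2).mul eT))
  have eP2 : EG fun z => T z * (H z ^ 2 * N z) - H z ^ 2 * C z - N z * (2 * H z * H1 z) -
      x * V z * (H z ^ 2 * N z) :=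
    (((eT.mul ((eH.pow 2).mul eN)).sub ((eH.pow 2).mul eC)).sub
      (eN.mul ((eH.const_mul 2).mul eH1))).sub ((eV.const_mul x).mul ((eH.pow 2).mul eN))
  have key : ∫ z, W z * (H z * (T z - a * f z) - H1 z) ^ 2 ∂(gI ι) =
      (∫ z, W z * H1 z ^ 2 ∂(gI ι) + ∫ z, W z * H z ^ 2 ∂(gI ι)) -
        a * ∫ z, W z * (H z ^ 2 * C z) ∂(gI ι) +
        ∫ z, W z * (T z * (H z ^ 2 * T z) - H z ^ 2 - T z * (2 * H z * H1 z) -
          x * V z * (H z ^ 2 * T z)) ∂(gI ι) -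
        a * ∫ z, W z * (T z * (H z ^ 2 * N z) - H z ^ 2 * C z - N z * (2 * H z * H1 z) -
          x * V z * (H z ^ 2 * N z)) ∂(gI ι) -
        2 * a * ∫ z, W z * ((H z * d z) * H1 z) ∂(gI ι) +
        x * ∫ z, W z * ((H z ^ 2 * T z) * w z) ∂(gI ι) +
        2 * a * ∫ z, W z * ((H z ^ 2 * T z) * d z) ∂(gI ι) -
        a ^ 2 * ∫ z, W z * ((H z ^ 2 * (N z + f z)) * d z) ∂(gI ι) -
        a * x * ∫ z, W z * ((H z ^ 2 * N z) * w z) ∂(gI ι) := by
    rw [← wadd eW (eH1.pow 2) (eH.pow 2), ← wcm a, ← wcm a, ← wcm (2 * a), ← wcm x,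
      ← wcm (2 * a), ← wcm (a ^ 2), ← wcm (a * x),
      ← wsub eW e1 (((eH.pow 2).mul eC).const_mul a),
      ← wadd eW (e1.sub (((eH.pow 2).mul eC).const_mul a)) eP1,
      ← wsub eW ((e1.sub (((eH.pow 2).mul eC).const_mul a)).add eP1) (eP2.const_mul a),
      ← wsub eW (((e1.sub (((eH.pow 2).mul eC).const_mul a)).add eP1).sub (eP2.const_mul a))
        (((eH.mul ed).mul eH1).const_mul (2 * a)),
      ← wadd eW ((((e1.sub (((eH.pow 2).mul eC).const_mul a)).add eP1).sub (eP2.const_mul a)).sub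
        (((eH.mul ed).mul eH1).const_mul (2 * a))) ((((eH.pow 2).mul eT).mul ew).const_mul x),
      ← wadd eW (((((e1.sub (((eH.pow 2).mul eC).const_mul a)).add eP1).sub
        (eP2.const_mul a)).sub (((eH.mul ed).mul eH1).const_mul (2 * a))).add
        ((((eH.pow 2).mul eT).mul ew).const_mul x))
        ((((eH.pow 2).mul eT).mul ed).const_mul (2 * a)),
      ← wsub eW ((((((e1.sub (((eH.pow 2).mul eC).const_mul a)).add eP1).sub
        (eP2.const_mul a)).sub (((eH.mul ed).mul eH1).const_mul (2 * a))).add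
        ((((eH.pow 2).mul eT).mul ew).const_mul x)).add
        ((((eH.pow 2).mul eT).mul ed).const_mul (2 * a)))
        ((((eH.pow 2).mul (eN.add ef)).mul ed).const_mul (a ^ 2)),
      ← wsub eW (((((((e1.sub (((eH.pow 2).mul eC).const_mul a)).add eP1).sub
        (eP2.const_mul a)).sub (((eH.mul ed).mul eH1).const_mul (2 * a))).add
        ((((eH.pow 2).mul eT).mul ew).const_mul x)).add
        ((((eH.pow 2).mul eT).mul ed).const_mul (2 * a))).sub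
        ((((eH.pow 2).mul (eN.add ef)).mul ed).const_mul (a ^ 2)))
        ((((eH.pow 2).mul eN).mul ew).const_mul (a * x))]
    congr 1
    funext z
    rw [hdd, hww, ha]
    ring
  rw [key, P1, P2]
  have := idn_num hx hx1 ha0 ha1 hη r1 r2 r3 r4 r5
  refine le_trans (le_of_eq ?_) this
  congr 1
  ring

end

end Vale.Agent.P146.H246.Mc
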