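import Vale.Agent.P146.H246.Mc4

/-!
Maximal correlation of two functions of nearly one Gaussian variable, part 5: second moments of
linear forms, Poincaré inequalities with the weight.
-/

open MeasureTheory ProbabilityTheory Filter Topology

namespace Vale.Agent.P146.H246.Mc

open Vale.Agent.P157.Lv Vale.Agent.P146.H329

set_option linter.unusedSectionVars false

variable {ι : Type} [Fintype ι] [DecidableEq ι]

section

variable {x Λ : ℝ} {W N1 N2 : (ι → ℝ) → ℝ} {u n1 n2 : ι → (ι → ℝ) → ℝ}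

lemma x_le {x Λ : ℝ} (hx : 0 ≤ x) (hΛ : 1 ≤ Λ) (hxΛ : 64 * (x * Λ ^ 2) ≤ 1) :
    x ≤ 1 / 64 ∧ x * Λ ≤ 1 / 64 ∧ x ^ 2 * Λ ^ 2 ≤ 1 / 4096 := by
  have h1 : x * 1 ≤ x * Λ := mul_le_mul_of_nonneg_left hΛ hx
  have h2 : x * Λ ≤ x * Λ ^ 2 := mul_le_mul_of_nonneg_left (by nlinarith) hx
  have h3 : 0 ≤ x * Λ := by positivity
  refine ⟨by linarith, by linarith, ?_⟩
  have : x ^ 2 * Λ ^ 2 = (x * Λ) * (x * Λ) := by ring
  rw [this]
  have h4 : x * Λ ≤ 1 / 64 := by linarith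
  nlinarith

/-- Second moments of linear forms. -/
theorem wlin (D : Dat x Λ W N1 N2 u n1 n2) (hx : 0 ≤ x) (hΛ : 1 ≤ Λ)
    (hxΛ : 64 * (x * Λ ^ 2) ≤ 1) (e : ι → ℝ) :
    ∫ z, W z * dv e z ^ 2 ∂(gI ι) ≤ 2 * ∑ i, e i ^ 2 := by
  obtain ⟨-, -, h3⟩ := x_le hx hΛ hxΛ
  have eu := D.eu (by linarith : (0 : ℝ) ≤ Λ)
  have S := st2 D.fW D.egW eu (φ := fun _ => (1 : ℝ)) (φ1 := fun _ => 0)
    (fun t => hasDerivAt_const t 1) (CcE.const 1) (CcE.const 0) (fd_dv e) (eg_dv e)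
    (fun j => EG.const (e j)) e e
  obtain ⟨q, hq⟩ : ∃ q, q = ∑ i, e i ^ 2 := ⟨_, rfl⟩
  have hq0 : 0 ≤ q := by rw [hq]; exact Finset.sum_nonneg fun i _ => sq_nonneg _
  have hqq : ∑ j, e j * e j = q := by
    rw [hq]; exact Finset.sum_congr rfl fun j _ => by ring
  obtain ⟨V, hV⟩ : ∃ V : (ι → ℝ) → ℝ, V = fun z => ∑ j, e j * u j z := ⟨_, rfl⟩
  have eV : EG V := by rw [hV]; exact EG.sum Finset.univ fun j _ => (eu j).const_mul _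
  have bV : ∀ z, V z ^ 2 ≤ q * Λ ^ 2 := by
    intro z
    rw [hV, hq]
    refine (Finset.sum_mul_sq_le_sq_mul_sq Finset.univ e (fun j => u j z)).trans ?_
    exact mul_le_mul_of_nonneg_left (D.bu z) (Finset.sum_nonneg fun i _ => sq_nonneg _)
  have ed := eg_dv e
  have S' : ∫ z, W z * (dv e z ^ 2 - q - x * (V z * dv e z)) ∂(gI ι) = 0 := by
    rw [← S]
    congr 1
    funext z
    rw [hqq, hV]
    ring
  have h4 : ∫ z, W z * (3 / 4 * dv e z ^ 2 - (q + x ^ 2 * Λ ^ 2 * q)) ∂(gI ι) ≤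
      ∫ z, W z * (dv e z ^ 2 - q - x * (V z * dv e z)) ∂(gI ι) := by
    refine wmono D.egW (fun z => (D.pos z).le) (((ed.pow 2).const_mul _).sub (EG.const _))
      (((ed.pow 2).sub (EG.const _)).sub ((eV.mul ed).const_mul _)) fun z => ?_
    have h5 := bV z
    have h6 : x ^ 2 * V z ^ 2 ≤ x ^ 2 * (q * Λ ^ 2) := mul_le_mul_of_nonneg_left h5 (sq_nonneg _)
    nlinarith [sq_nonneg (x * V z - dv e z / 2)]
  rw [S', wsub D.egW ((ed.pow 2).const_mul _) (EG.const _), wcm, integral_mul_const, D.one] at h4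
  rw [← hq]
  nlinarith

/-- Poincaré inequality for functions of `v·z` with the weight. -/
theorem pch (D : Dat x Λ W N1 N2 u n1 n2) (hx : 0 ≤ x) (hΛ : 1 ≤ Λ)
    (hxΛ : 64 * (x * Λ ^ 2) ≤ 1) {v : ι → ℝ} (hv : ∑ i, v i ^ 2 = 1) {h h1 : ℝ → ℝ}
    (dh : ∀ t, HasDerivAt h (h1 t) t) (ch : CcE h) (ch1 : CcE h1)
    (h0 : ∫ z, h (dv v z) * √(W z) ∂(gI ι) = 0) :
    ∫ z, W z * h (dv v z) ^ 2 ∂(gI ι) ≤ 3 * ∫ z, W z * h1 (dv v z) ^ 2 ∂(gI ι) := by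
  obtain ⟨-, -, h3⟩ := x_le hx hΛ hxΛ
  have eu := D.eu (by linarith : (0 : ℝ) ≤ Λ)
  have eR := D.eR
  have eh := eg_comp_dv ch v
  have eh1 := eg_comp_dv ch1 v
  have fG := (FD.comp1 dh (fd_dv v)).mul D.fR
  have eG' : ∀ j, EG fun z => h (dv v z) * (x / 2 * (√(W z) * u j z)) +
      √(W z) * (h1 (dv v z) * v j) := fun j =>
    (eh.mul ((eR.mul (eu j)).const_mul _)).add (eR.mul (eg_mul_right eh1 (v j)))
  have P := cc_var_le_one (eh.mul eR) (fun e => fG.pd e) eG'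
  rw [h0] at P
  have l1 : ∫ z, (h (dv v z) * √(W z) - 0) ^ 2 ∂(gI ι) = ∫ z, W z * h (dv v z) ^ 2 ∂(gI ι) := by
    congr 1
    funext z
    rw [sub_zero, mul_pow, Real.sq_sqrt (D.pos z).le]; ring
  rw [l1, ← integral_finsetSum _ fun j _ => ((eG' j).pow 2).integrable] at P
  have l2 : ∫ z, ∑ j, (h (dv v z) * (x / 2 * (√(W z) * u j z)) +
      √(W z) * (h1 (dv v z) * v j)) ^ 2 ∂(gI ι) ≤
      ∫ z, W z * (1 / 8 * h (dv v z) ^ 2 + 2 * h1 (dv v z) ^ 2) ∂(gI ι) := by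
    refine integral_mono (EG.sum Finset.univ fun j _ => (eG' j).pow 2).integrable
      (D.egW.mul (((eh.pow 2).const_mul _).add ((eh1.pow 2).const_mul _))).integrable fun z => ?_
    show ∑ j, (h (dv v z) * (x / 2 * (√(W z) * u j z)) +
      √(W z) * (h1 (dv v z) * v j)) ^ 2 ≤ W z * (1 / 8 * h (dv v z) ^ 2 + 2 * h1 (dv v z) ^ 2)
    obtain ⟨R, hR⟩ : ∃ R, R = √(W z) := ⟨_, rfl⟩
    have hRR : R ^ 2 = W z := by rw [hR]; exact Real.sq_sqrt (D.pos z).le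
    obtain ⟨H, hH⟩ : ∃ H, H = h (dv v z) := ⟨_, rfl⟩
    obtain ⟨H1, hH1⟩ : ∃ H1, H1 = h1 (dv v z) := ⟨_, rfl⟩
    rw [← hR, ← hRR, ← hH, ← hH1]
    have l3 : ∑ j, (H * (x / 2 * (R * u j z)) + R * (H1 * v j)) ^ 2 ≤
        ∑ j, (R ^ 2 * (x ^ 2 / 2 * H ^ 2) * u j z ^ 2 + R ^ 2 * (2 * H1 ^ 2) * v j ^ 2) := by
      refine Finset.sum_le_sum fun j _ => ?_
      nlinarith [sq_nonneg (H * (x / 2 * (R * u j z)) - R * (H1 * v j))]
    rw [Finset.sum_add_distrib, ← Finset.mul_sum, ← Finset.mul_sum, hv] at l3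
    have l4 : R ^ 2 * (x ^ 2 / 2 * H ^ 2) * ∑ e, u e z ^ 2 ≤
        R ^ 2 * (x ^ 2 / 2 * H ^ 2) * Λ ^ 2 := mul_le_mul_of_nonneg_left (D.bu z) (by positivity)
    have l5 : R ^ 2 * (x ^ 2 / 2 * H ^ 2) * Λ ^ 2 ≤ R ^ 2 * (1 / 8 * H ^ 2) := by
      have : R ^ 2 * (x ^ 2 / 2 * H ^ 2) * Λ ^ 2 = R ^ 2 * H ^ 2 * (x ^ 2 * Λ ^ 2 / 2) := by ring
      rw [this]
      have h6 : R ^ 2 * H ^ 2 * (x ^ 2 * Λ ^ 2 / 2) ≤ R ^ 2 * H ^ 2 * (1 / 8) :=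
        mul_le_mul_of_nonneg_left (by linarith) (by positivity)
      linarith
    linarith
  have l6 := P.trans l2
  rw [wadd D.egW ((eh.pow 2).const_mul _) ((eh1.pow 2).const_mul _), wcm, wcm] at l6
  have h7 : 0 ≤ ∫ z, W z * h1 (dv v z) ^ 2 ∂(gI ι) :=
    integral_nonneg fun z => mul_nonneg (D.pos z).le (sq_nonneg _)
  linarith

/-- The size of the first function. -/
theorem a1_le (D : Dat x Λ W N1 N2 u n1 n2) (hx : 0 ≤ x) (hΛ : 1 ≤ Λ)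
    (hxΛ : 64 * (x * Λ ^ 2) ≤ 1) {a : ι → ℝ} {U1 : (ι → ℝ) → ℝ} (eU : EG U1)
    (bU : ∀ z, |U1 z| ≤ 4) {ε : ℝ}
    (E2 : ∫ z, W z * ∑ e, (n1 e z - U1 z * a e) ^ 2 ∂(gI ι) ≤ ε) :
    ∫ z, W z * N1 z ^ 2 ∂(gI ι) ≤ 80 * ∑ e, a e ^ 2 + 5 * ε := by
  obtain ⟨-, -, h3⟩ := x_le hx hΛ hxΛ
  have hΛ0 : (0 : ℝ) ≤ Λ := by linarith
  have eu := D.eu hΛ0
  have en := D.en1 hΛ0
  have eR := D.eR
  have e1 := D.e1
  have fG := D.f1.mul D.fR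
  have eG' : ∀ j, EG fun z => N1 z * (x / 2 * (√(W z) * u j z)) + √(W z) * n1 j z := fun j =>
    (e1.mul ((eR.mul (eu j)).const_mul _)).add (eR.mul (en j))
  have P := cc_var_le_one (e1.mul eR) (fun e => fG.pd e) eG'
  have hodd : ∫ z, N1 z * √(W z) ∂(gI ι) = 0 :=
    int_odd (e1.mul eR) fun z => by rw [D.od1, D.ev]; ring
  rw [hodd] at P
  have l1 : ∫ z, (N1 z * √(W z) - 0) ^ 2 ∂(gI ι) = ∫ z, W z * N1 z ^ 2 ∂(gI ι) := by
    congr 1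
    funext z
    rw [sub_zero, mul_pow, Real.sq_sqrt (D.pos z).le]; ring
  rw [l1, ← integral_finsetSum _ fun j _ => ((eG' j).pow 2).integrable] at P
  have eY : ∀ j, EG fun z => n1 j z - U1 z * a j := fun j => (en j).sub (eg_mul_right eU _)
  have eS : EG fun z => ∑ e, (n1 e z - U1 z * a e) ^ 2 := EG.sum Finset.univ fun j _ =>
    (eY j).pow 2
  have l2 : ∫ z, ∑ j, (N1 z * (x / 2 * (√(W z) * u j z)) + √(W z) * n1 j z) ^ 2 ∂(gI ι) ≤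
      ∫ z, W z * (1 / 8 * N1 z ^ 2 + (64 * ∑ e, a e ^ 2 +
        4 * ∑ e, (n1 e z - U1 z * a e) ^ 2)) ∂(gI ι) := by
    refine integral_mono (EG.sum Finset.univ fun j _ => (eG' j).pow 2).integrable
      (D.egW.mul (((e1.pow 2).const_mul _).add ((EG.const _).add (eS.const_mul _)))).integrable
      fun z => ?_
    show ∑ j, (N1 z * (x / 2 * (√(W z) * u j z)) + √(W z) * n1 j z) ^ 2 ≤
      W z * (1 / 8 * N1 z ^ 2 + (64 * ∑ e, a e ^ 2 + 4 * ∑ e, (n1 e z - U1 z * a e) ^ 2))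
    obtain ⟨R, hR⟩ : ∃ R, R = √(W z) := ⟨_, rfl⟩
    have hRR : R ^ 2 = W z := by rw [hR]; exact Real.sq_sqrt (D.pos z).le
    obtain ⟨N, hN⟩ : ∃ N, N = N1 z := ⟨_, rfl⟩
    obtain ⟨U, hU⟩ : ∃ U, U = U1 z := ⟨_, rfl⟩
    have hU2 : U ^ 2 ≤ 16 := by
      rw [← sq_abs, hU]; nlinarith [bU z, abs_nonneg (U1 z)]
    rw [← hR, ← hRR, ← hN, ← hU]
    have l3 : ∑ j, (N * (x / 2 * (R * u j z)) + R * n1 j z) ^ 2 ≤
        ∑ j, (R ^ 2 * (x ^ 2 / 2 * N ^ 2) * u j z ^ 2 + R ^ 2 * (64 * a j ^ 2) +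
          R ^ 2 * (4 * (n1 j z - U * a j) ^ 2)) := by
      refine Finset.sum_le_sum fun j _ => ?_
      obtain ⟨y, hy⟩ : ∃ y, y = n1 j z - U * a j := ⟨_, rfl⟩
      have hn : n1 j z = y + U * a j := by rw [hy]; ring
      rw [← hy, hn]
      have l4 : (U * a j) ^ 2 ≤ 16 * a j ^ 2 := by
        rw [mul_pow]; exact mul_le_mul_of_nonneg_right hU2 (sq_nonneg _)
      have l5 : (N * (x / 2 * (R * u j z)) + R * (y + U * a j)) ^ 2 ≤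
          2 * (N * (x / 2 * (R * u j z))) ^ 2 + 2 * (R * (y + U * a j)) ^ 2 := by
        nlinarith [sq_nonneg (N * (x / 2 * (R * u j z)) - R * (y + U * a j))]
      have l6 : (y + U * a j) ^ 2 ≤ 2 * y ^ 2 + 2 * (U * a j) ^ 2 := by
        nlinarith [sq_nonneg (y - U * a j)]
      have l7 : R ^ 2 * (y + U * a j) ^ 2 ≤ R ^ 2 * (2 * y ^ 2 + 32 * a j ^ 2) :=
        mul_le_mul_of_nonneg_left (by linarith) (sq_nonneg _)
      have l8 : (R * (y + U * a j)) ^ 2 = R ^ 2 * (y + U * a j) ^ 2 := by ring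
      have l9 : 2 * (N * (x / 2 * (R * u j z))) ^ 2 = R ^ 2 * (x ^ 2 / 2 * N ^ 2) * u j z ^ 2 := by
        ring
      rw [l8, l9] at l5
      linarith
    rw [Finset.sum_add_distrib, Finset.sum_add_distrib, ← Finset.mul_sum, ← Finset.mul_sum,
      ← Finset.mul_sum, ← Finset.mul_sum, ← Finset.mul_sum] at l3
    have l4 : R ^ 2 * (x ^ 2 / 2 * N ^ 2) * ∑ e, u e z ^ 2 ≤
        R ^ 2 * (x ^ 2 / 2 * N ^ 2) * Λ ^ 2 := mul_le_mul_of_nonneg_left (D.bu z) (by positivity)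
    have l5 : R ^ 2 * (x ^ 2 / 2 * N ^ 2) * Λ ^ 2 ≤ R ^ 2 * (1 / 8 * N ^ 2) := by
      have : R ^ 2 * (x ^ 2 / 2 * N ^ 2) * Λ ^ 2 = R ^ 2 * N ^ 2 * (x ^ 2 * Λ ^ 2 / 2) := by ring
      rw [this]
      have h6 : R ^ 2 * N ^ 2 * (x ^ 2 * Λ ^ 2 / 2) ≤ R ^ 2 * N ^ 2 * (1 / 8) :=
        mul_le_mul_of_nonneg_left (by linarith) (by positivity)
      linarith
    linarith
  have l6 := P.trans l2
  rw [wadd D.egW ((e1.pow 2).const_mul _) ((EG.const _).add (eS.const_mul _)),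
    wadd D.egW (EG.const _) (eS.const_mul _), wcm, integral_mul_const, D.one,
    wcm (f := fun z => ∑ e, (n1 e z - U1 z * a e) ^ 2) 4] at l6
  have h7 : 0 ≤ ∑ e, a e ^ 2 := Finset.sum_nonneg fun i _ => sq_nonneg _
  have h8 : 0 ≤ ε := le_trans (integral_nonneg fun z => mul_nonneg (D.pos z).le
    (Finset.sum_nonneg fun j _ => sq_nonneg _)) E2
  linarith

end

end Vale.Agent.P146.H246.Mc
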