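import Vale.Agent.P146.H246.Mc5

/-!
Maximal correlation of two functions of nearly one Gaussian variable, part 6: the norm of `k`.
-/

open MeasureTheory ProbabilityTheory Filter Topology

namespace Vale.Agent.P146.H246.Mc

open Vale.Agent.P157.Lv Vale.Agent.P146.H329

set_option linter.unusedSectionVars false

variable {ι : Type} [Fintype ι] [DecidableEq ι]

/-- The frame: the data, the direction, the errors, the profile and its transform. -/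
structure Fr (x Λ η σ : ℝ) (W N1 N2 : (ι → ℝ) → ℝ) (u n1 n2 : ι → (ι → ℝ) → ℝ) (v : ι → ℝ)
    (U1 : (ι → ℝ) → ℝ) (F k : ℝ → ℝ) : Prop where
  D : Dat x Λ W N1 N2 u n1 n2
  hx : 0 ≤ x
  hΛ : 1 ≤ Λ
  hxΛ : 64 * (x * Λ ^ 2) ≤ 1
  hη : 0 ≤ η
  hη1 : η ≤ 1
  hv : ∑ i, v i ^ 2 = 1
  hσ : 0 ≤ σ
  hσΛ : σ ≤ Λ
  eU : EG U1
  bU : ∀ z, |U1 z| ≤ 4
  E1 : ∫ z, W z * ∑ e, (u e z - N1 z * (σ * v e)) ^ 2 ∂(gI ι) ≤ η ^ 2
  E2 : ∫ z, W z * ∑ e, (n1 e z - U1 z * (σ * v e)) ^ 2 ∂(gI ι) ≤ η ^ 2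
  cF : Continuous F
  bF : ∀ t, |F t| ≤ 2
  dF : ∫ z, W z * (N1 z - F (dv v z)) ^ 2 ∂(gI ι) ≤ (4 * η) ^ 2
  dk : ∀ t, HasDerivAt k (k t * (t - x * σ * F t) - F t) t
  bk : ∀ t, |k t| ≤ 8

namespace Fr

variable {x Λ η σ : ℝ} {W N1 N2 : (ι → ℝ) → ℝ} {u n1 n2 : ι → (ι → ℝ) → ℝ} {v : ι → ℝ}
    {U1 : (ι → ℝ) → ℝ} {F k : ℝ → ℝ}

lemma W0 (Q : Fr x Λ η σ W N1 N2 u n1 n2 v U1 F k) (z : ι → ℝ) : 0 ≤ W z := (Q.D.pos z).le

lemma L0 (Q : Fr x Λ η σ W N1 N2 u n1 n2 v U1 F k) : 0 ≤ Λ := le_trans zero_le_one Q.hΛ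

lemma a0 (Q : Fr x Λ η σ W N1 N2 u n1 n2 v U1 F k) : 0 ≤ x * σ := mul_nonneg Q.hx Q.hσ

lemma a1 (Q : Fr x Λ η σ W N1 N2 u n1 n2 v U1 F k) : x * σ ≤ 1 / 64 :=
  (mul_le_mul_of_nonneg_left Q.hσΛ Q.hx).trans (x_le Q.hx Q.hΛ Q.hxΛ).2.1

lemma x1 (Q : Fr x Λ η σ W N1 N2 u n1 n2 v U1 F k) : x ≤ 1 / 64 := (x_le Q.hx Q.hΛ Q.hxΛ).1

lemma ccF (Q : Fr x Λ η σ W N1 N2 u n1 n2 v U1 F k) : CcE F :=
  cce_of Q.cF ⟨2, 0, by norm_num, le_rfl, fun t => by simpa using Q.bF t⟩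

lemma ck (Q : Fr x Λ η σ W N1 N2 u n1 n2 v U1 F k) : CcE k :=
  cce_of (continuous_iff_continuousAt.2 fun t => (Q.dk t).continuousAt)
    ⟨8, 0, by norm_num, le_rfl, fun t => by simpa using Q.bk t⟩

lemma ck1 (Q : Fr x Λ η σ W N1 N2 u n1 n2 v U1 F k) :
    CcE fun t => k t * (t - x * σ * F t) - F t :=
  (Q.ck.mul (CcE.id.sub (Q.ccF.cm _))).sub Q.ccF

lemma eV (Q : Fr x Λ η σ W N1 N2 u n1 n2 v U1 F k) (e : ι → ℝ) :
    EG fun z => ∑ j, e j * u j z :=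
  EG.sum Finset.univ fun j _ => (Q.D.eu Q.L0 j).const_mul _

lemma eC (Q : Fr x Λ η σ W N1 N2 u n1 n2 v U1 F k) (e : ι → ℝ) :
    EG fun z => ∑ j, e j * n1 j z :=
  EG.sum Finset.univ fun j _ => (Q.D.en1 Q.L0 j).const_mul _

/-- the error of the direction `v` for `u` -/
lemma hw (Q : Fr x Λ η σ W N1 N2 u n1 n2 v U1 F k) :
    ∫ z, W z * (∑ j, v j * u j z - N1 z * σ) ^ 2 ∂(gI ι) ≤ η ^ 2 := by
  have h := dirb Q.D.egW Q.W0 (y := fun e z => u e z - N1 z * (σ * v e))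
    (fun j => (Q.D.eu Q.L0 j).sub (eg_mul_right Q.D.e1 _)) Q.E1 v
  rw [Q.hv, one_mul] at h
  refine le_trans (le_of_eq ?_) h
  congr 1
  funext z
  congr 2
  have : ∑ j, v j * (u j z - N1 z * (σ * v j)) = ∑ j, v j * u j z - N1 z * σ * ∑ j, v j ^ 2 := by
    rw [Finset.mul_sum, ← Finset.sum_sub_distrib]
    exact Finset.sum_congr rfl fun j _ => by ring
  rw [this, Q.hv]; ring

lemma hw2 (Q : Fr x Λ η σ W N1 N2 u n1 n2 v U1 F k) :
    ∫ z, W z * (∑ j, v j * n1 j z - U1 z * σ) ^ 2 ∂(gI ι) ≤ η ^ 2 := by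
  have h := dirb Q.D.egW Q.W0 (y := fun e z => n1 e z - U1 z * (σ * v e))
    (fun j => (Q.D.en1 Q.L0 j).sub (eg_mul_right Q.eU _)) Q.E2 v
  rw [Q.hv, one_mul] at h
  refine le_trans (le_of_eq ?_) h
  congr 1
  funext z
  congr 2
  have : ∑ j, v j * (n1 j z - U1 z * (σ * v j)) =
      ∑ j, v j * n1 j z - U1 z * σ * ∑ j, v j ^ 2 := by
    rw [Finset.mul_sum, ← Finset.sum_sub_distrib]
    exact Finset.sum_congr rfl fun j _ => by ring
  rw [this, Q.hv]; ring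

lemma bT (Q : Fr x Λ η σ W N1 N2 u n1 n2 v U1 F k) :
    ∫ z, W z * dv v z ^ 2 ∂(gI ι) ≤ 2 := by
  have := wlin Q.D Q.hx Q.hΛ Q.hxΛ v
  rwa [Q.hv, mul_one] at this

/-- The weighted identity. -/
theorem idn (Q : Fr x Λ η σ W N1 N2 u n1 n2 v U1 F k) {h h1 : ℝ → ℝ}
    (dh : ∀ t, HasDerivAt h (h1 t) t) (ch : CcE h) (ch1 : CcE h1) (bh : ∀ t, |h t| ≤ 16)
    (bh1 : ∫ z, W z * h1 (dv v z) ^ 2 ∂(gI ι) ≤ 17 ^ 2) :
    |∫ z, W z * (h (dv v z) * (dv v z - x * σ * F (dv v z)) - h1 (dv v z)) ^ 2 ∂(gI ι) -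
      (∫ z, W z * h1 (dv v z) ^ 2 ∂(gI ι) + ∫ z, W z * h (dv v z) ^ 2 ∂(gI ι) -
        x * σ * ∫ z, W z * (h (dv v z) ^ 2 * ∑ j, v j * n1 j z) ∂(gI ι))| ≤ 90 * η := by
  have eu := Q.D.eu Q.L0
  have hvv : ∑ j, v j * v j = 1 := by
    rw [← Q.hv]; exact Finset.sum_congr rfl fun j _ => by ring
  have dh2 : ∀ t, HasDerivAt (fun t => h t ^ 2) (2 * h t * h1 t) t := by
    intro t
    refine ((dh t).fun_pow 2).congr_deriv ?_
    push_cast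
    ring
  have S1 := st2 Q.D.fW Q.D.egW eu dh2 ch.sq ((ch.cm 2).mul ch1) (fd_dv v) (eg_dv v)
    (fun j => EG.const (v j)) v v
  have S2 := st2 Q.D.fW Q.D.egW eu dh2 ch.sq ((ch.cm 2).mul ch1) Q.D.f1 Q.D.e1
    (Q.D.en1 Q.L0) v v
  refine idn0 (T := dv v) (H := fun z => h (dv v z)) (H1 := fun z => h1 (dv v z))
    (f := fun z => F (dv v z)) (N := N1) (C := fun z => ∑ j, v j * n1 j z)
    (V := fun z => ∑ j, v j * u j z) Q.D.egW Q.W0 Q.D.one (eg_dv v) (eg_comp_dv ch v)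
    (eg_comp_dv ch1 v) (eg_comp_dv Q.ccF v) Q.D.e1 (Q.eC v) (Q.eV v) rfl Q.hx Q.x1 Q.a0 Q.a1
    Q.hη ?_ ?_ Q.bT (fun z => bh _) bh1 Q.D.b1 (fun z => Q.bF _) Q.dF Q.hw
  · rw [← S1]
    congr 1
    funext z
    rw [hvv]; ring
  · rw [← S2]
    congr 1
    funext z
    rw [hvv]; ring

/-- The size of `k'`. -/
lemma bk1 (Q : Fr x Λ η σ W N1 N2 u n1 n2 v U1 F k) :
    ∫ z, W z * (k (dv v z) * (dv v z - x * σ * F (dv v z)) - F (dv v z)) ^ 2 ∂(gI ι) ≤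
      17 ^ 2 := by
  have h1 : ∫ z, W z * (k (dv v z) * (dv v z - x * σ * F (dv v z)) - F (dv v z)) ^ 2 ∂(gI ι) ≤
      ∫ z, W z * (128 * dv v z ^ 2 + 18) ∂(gI ι) := by
    refine wmono Q.D.egW Q.W0 ((eg_comp_dv Q.ck1 v).pow 2) (((eg_dv v).pow 2).const_mul _ |>.add
      (EG.const _)) fun z => ?_
    obtain ⟨t, ht⟩ : ∃ t, t = dv v z := ⟨_, rfl⟩
    rw [← ht]
    have h2 : |k t * (t - x * σ * F t) - F t| ≤ 8 * |t| + 3 := by
      have h3 : |x * σ * F t| ≤ 1 / 32 := by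
        rw [abs_mul, abs_of_nonneg Q.a0]
        have := mul_le_mul Q.a1 (Q.bF t) (abs_nonneg _) (by norm_num)
        linarith
      calc |k t * (t - x * σ * F t) - F t| ≤ |k t * (t - x * σ * F t)| + |F t| := abs_sub _ _
        _ = |k t| * |t - x * σ * F t| + |F t| := by rw [abs_mul]
        _ ≤ 8 * (|t| + 1 / 32) + 2 := by
            refine add_le_add (mul_le_mul (Q.bk t) ((abs_sub _ _).trans
              (add_le_add le_rfl h3)) (abs_nonneg _) (by norm_num)) (Q.bF t)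
        _ ≤ _ := by linarith
    have h4 : (k t * (t - x * σ * F t) - F t) ^ 2 ≤ (8 * |t| + 3) ^ 2 := by
      rw [← sq_abs]
      exact pow_le_pow_left₀ (abs_nonneg _) h2 2
    have h5 : |t| ^ 2 = t ^ 2 := sq_abs t
    nlinarith [sq_nonneg (8 * |t| - 3)]
  refine h1.trans ?_
  rw [wadd Q.D.egW (((eg_dv v).pow 2).const_mul _) (EG.const _), wcm, integral_mul_const, Q.D.one]
  linarith [Q.bT]

end Fr

lemma fin_num {S K A s η ν : ℝ} (hν : 0 ≤ ν) (hη : 0 ≤ η) (hs : 0 ≤ s) (hs1 : s ≤ 1 / 64)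
    (hS0 : 0 ≤ S) (v1 : S + K ≤ A + 107 * η + 4 * (s * S)) (u4 : 3 / 4 * ν ≤ 10 * K + 228 * η)
    (hK : 0 ≤ K) (hc : 60 * (s * A) ≤ ν + 6 * η) : S ≤ A + 140 * η := by
  have c6 : s * S ≤ 1 / 64 * S := mul_le_mul_of_nonneg_right hs1 hS0
  have v2 : S ≤ 16 / 15 * (A + 107 * η) := by linarith
  have v3 : s * S ≤ s * (16 / 15 * (A + 107 * η)) := mul_le_mul_of_nonneg_left v2 hs
  have v4 : s * η ≤ 1 / 64 * η := mul_le_mul_of_nonneg_right hs1 hη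
  have v5 : s * (16 / 15 * (A + 107 * η)) = 16 / 15 * (s * A) + 1712 / 15 * (s * η) := by ring
  rw [v5] at v3
  linarith

namespace Fr

variable {x Λ η σ : ℝ} {W N1 N2 : (ι → ℝ) → ℝ} {u n1 n2 : ι → (ι → ℝ) → ℝ} {v : ι → ℝ}
    {U1 : (ι → ℝ) → ℝ} {F k : ℝ → ℝ}

/-- A bounded transform shifted by its mean: lower bound of the energy of `k`. -/
theorem klow (Q : Fr x Λ η σ W N1 N2 u n1 n2 v U1 F k) {ν : ℝ} (hν0 : 0 ≤ ν)
    (hν : ∀ l : ℝ, ν ≤ ∫ z, W z * (N1 z - l * dv v z) ^ 2 ∂(gI ι)) {k1 : ℝ → ℝ}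
    (hk1 : ∀ t, k1 t = k t * (t - x * σ * F t) - F t) :
    3 / 4 * ν ≤ 10 * ∫ z, W z * k1 (dv v z) ^ 2 ∂(gI ι) + 228 * η := by
  have hW := Q.D.egW
  have h0 := Q.W0
  obtain ⟨hx1, -, -⟩ := x_le Q.hx Q.hΛ Q.hxΛ
  have eR := Q.D.eR
  have ek := eg_comp_dv Q.ck v
  have hk1f : k1 = fun t => k t * (t - x * σ * F t) - F t := funext hk1
  have dk : ∀ t, HasDerivAt k (k1 t) t := fun t => by rw [hk1]; exact Q.dk t
  have ck1 : CcE k1 := by rw [hk1f]; exact Q.ck1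
  have ek1 := eg_comp_dv ck1 v
  have bk1 : ∫ z, W z * k1 (dv v z) ^ 2 ∂(gI ι) ≤ 17 ^ 2 := by
    rw [hk1f]; exact Q.bk1
  have eF := eg_comp_dv Q.ccF v
  have eN := Q.D.e1
  -- the constant
  have hR0 : 0 < ∫ z, √(W z) ∂(gI ι) := by
    rw [integral_pos_iff_support_of_nonneg (fun z => Real.sqrt_nonneg _) eR.integrable]
    have : Function.support (fun z => √(W z)) = Set.univ := by
      ext z
      simp [Function.mem_support, (Real.sqrt_pos.2 (Q.D.pos z)).ne']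
    rw [this]
    simp
  obtain ⟨c0, hc0⟩ : ∃ c0, c0 = (∫ z, k (dv v z) * √(W z) ∂(gI ι)) / ∫ z, √(W z) ∂(gI ι) :=
    ⟨_, rfl⟩
  have bc0 : |c0| ≤ 8 := by
    rw [hc0, abs_div, abs_of_pos hR0, div_le_iff₀ hR0, ← integral_const_mul]
    calc |∫ z, k (dv v z) * √(W z) ∂(gI ι)| ≤ ∫ z, |k (dv v z) * √(W z)| ∂(gI ι) := by
          have := norm_integral_le_integral_norm (μ := gI ι) (fun z => k (dv v z) * √(W z))
          simpa [Real.norm_eq_abs] using this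
      _ ≤ ∫ z, 8 * √(W z) ∂(gI ι) := by
          refine integral_mono ((ek.mul eR).abs).integrable (eR.const_mul 8).integrable
            fun z => ?_
          show |k (dv v z) * √(W z)| ≤ 8 * √(W z)
          rw [abs_mul, abs_of_nonneg (Real.sqrt_nonneg (W z))]
          exact mul_le_mul_of_nonneg_right (Q.bk _) (Real.sqrt_nonneg _)
  have ch : CcE fun t => k t - c0 := Q.ck.sub (CcE.const _)
  have dh : ∀ t, HasDerivAt (fun t => k t - c0) (k1 t) t := fun t => (dk t).sub_const c0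
  have hz : ∫ z, (fun t => k t - c0) (dv v z) * √(W z) ∂(gI ι) = 0 := by
    have : ∀ z, (fun t => k t - c0) (dv v z) * √(W z) = k (dv v z) * √(W z) - c0 * √(W z) :=
      fun z => by ring
    simp only [this]
    rw [integral_sub (ek.mul eR).integrable (eR.const_mul _).integrable, integral_const_mul, hc0,
      div_mul_cancel₀ _ hR0.ne', sub_self]
  have p1 := pch Q.D Q.hx Q.hΛ Q.hxΛ Q.hv dh ch ck1 hz
  have i1 := Q.idn dh ch ck1 (fun t => (abs_sub _ _).trans (by linarith [Q.bk t])) bk1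
  have eC := Q.eC v
  obtain ⟨K, hK⟩ : ∃ K, K = ∫ z, W z * k1 (dv v z) ^ 2 ∂(gI ι) := ⟨_, rfl⟩
  have hK0 : 0 ≤ K := by
    rw [hK]; exact integral_nonneg fun z => mul_nonneg (h0 z) (sq_nonneg _)
  obtain ⟨Sh, hSh⟩ : ∃ S, S = ∫ z, W z * (fun t => k t - c0) (dv v z) ^ 2 ∂(gI ι) := ⟨_, rfl⟩
  have hSh0 : 0 ≤ Sh := by
    rw [hSh]; exact integral_nonneg fun z => mul_nonneg (h0 z) (sq_nonneg _)
  -- first identity, upper bound
  have c1 : |∫ z, W z * ((fun t => k t - c0) (dv v z) ^ 2 * ∑ j, v j * n1 j z) ∂(gI ι)| ≤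
      Λ * Sh := by
    have hb : ∀ z, |∑ j, v j * n1 j z| ≤ Λ := by
      intro z
      refine abs_le_of_sq_le_sq ?_ Q.L0
      refine (Finset.sum_mul_sq_le_sq_mul_sq Finset.univ v (fun j => n1 j z)).trans ?_
      rw [Q.hv, one_mul]
      exact Q.D.bn1 z
    have eh := eg_comp_dv ch v
    have h1 : |∫ z, W z * ((fun t => k t - c0) (dv v z) ^ 2 * ∑ j, v j * n1 j z) ∂(gI ι)| ≤
        ∫ z, |W z * ((fun t => k t - c0) (dv v z) ^ 2 * ∑ j, v j * n1 j z)| ∂(gI ι) := by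
      have := norm_integral_le_integral_norm (μ := gI ι)
        (fun z => W z * ((fun t => k t - c0) (dv v z) ^ 2 * ∑ j, v j * n1 j z))
      simpa [Real.norm_eq_abs] using this
    refine h1.trans ?_
    rw [hSh, ← integral_const_mul]
    refine integral_mono ((hW.mul ((eh.pow 2).mul eC)).abs).integrable
      ((hW.mul (eh.pow 2)).const_mul _).integrable fun z => ?_
    show |W z * ((fun t => k t - c0) (dv v z) ^ 2 * ∑ j, v j * n1 j z)| ≤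
      Λ * (W z * (fun t => k t - c0) (dv v z) ^ 2)
    rw [abs_mul, abs_mul, abs_of_nonneg (h0 z), abs_of_nonneg (sq_nonneg _)]
    have := mul_le_mul_of_nonneg_left (hb z)
      (mul_nonneg (h0 z) (sq_nonneg ((fun t => k t - c0) (dv v z))))
    linarith
  have u1 : ∫ z, W z * ((fun t => k t - c0) (dv v z) * (dv v z - x * σ * F (dv v z)) -
      k1 (dv v z)) ^ 2 ∂(gI ι) ≤ 5 * K + 90 * η := by
    have h1 := (abs_le.1 i1).2
    rw [← hK, ← hSh] at h1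
    rw [← hK, ← hSh] at p1
    have h2 : -(x * σ * ∫ z, W z * ((fun t => k t - c0) (dv v z) ^ 2 * ∑ j, v j * n1 j z)
        ∂(gI ι)) ≤ 1 / 64 * Sh := by
      have h3 := (abs_le.1 c1).1
      have h4 : x * σ * Λ ≤ 1 / 64 := by
        have := mul_le_mul_of_nonneg_right Q.hσΛ Q.L0
        have := mul_le_mul_of_nonneg_left this Q.hx
        nlinarith [Q.hxΛ]
      have h5 : x * σ * (Λ * Sh) ≤ 1 / 64 * Sh := by
        have := mul_le_mul_of_nonneg_right h4 hSh0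
        linarith
      have h6 := mul_le_mul_of_nonneg_left h3 Q.a0
      linarith
    linarith
  -- comparison with `N1`
  obtain ⟨m, hm⟩ : ∃ m, m = 1 + c0 * (x * σ) := ⟨_, rfl⟩
  have hm1 : 7 / 8 ≤ m ∧ m ≤ 9 / 8 := by
    have h1 : |c0 * (x * σ)| ≤ 8 * (1 / 64) := by
      rw [abs_mul, abs_of_nonneg Q.a0]
      exact mul_le_mul bc0 Q.a1 Q.a0 (by norm_num)
    rw [abs_le] at h1
    constructor <;> [linarith [h1.1]; linarith [h1.2]]
  have e1 : ∀ t, (fun t => k t - c0) t * (t - x * σ * F t) - k1 t = m * F t - c0 * t := by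
    intro t
    rw [hk1, hm]
    show (k t - c0) * (t - x * σ * F t) - (k t * (t - x * σ * F t) - F t) = _
    ring
  simp only [e1] at u1
  have u2 : ∫ z, W z * (m * N1 z - c0 * dv v z) ^ 2 ∂(gI ι) ≤
      ∫ z, W z * (2 * (m * F (dv v z) - c0 * dv v z) ^ 2 + 3 * (N1 z - F (dv v z)) ^ 2)
        ∂(gI ι) := by
    refine wmono hW h0 (((eN.const_mul _).sub ((eg_dv v).const_mul _)).pow 2)
      (((((eF.const_mul _).sub ((eg_dv v).const_mul _)).pow 2).const_mul _).add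
      (((eN.sub eF).pow 2).const_mul _)) fun z => ?_
    obtain ⟨d, hd⟩ : ∃ d, d = N1 z - F (dv v z) := ⟨_, rfl⟩
    have h1 : m * N1 z - c0 * dv v z = (m * F (dv v z) - c0 * dv v z) + m * d := by
      rw [hd]; ring
    rw [h1, ← hd]
    have h2 : (m * d) ^ 2 ≤ 3 / 2 * d ^ 2 := by
      rw [mul_pow]
      refine mul_le_mul_of_nonneg_right ?_ (sq_nonneg d)
      nlinarith [hm1.1, hm1.2]
    nlinarith [sq_nonneg ((m * F (dv v z) - c0 * dv v z) - m * d)]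
  rw [wadd hW ((((eF.const_mul _).sub ((eg_dv v).const_mul _)).pow 2).const_mul _)
      (((eN.sub eF).pow 2).const_mul _), wcm, wcm] at u2
  have u3 : 3 / 4 * ν ≤ ∫ z, W z * (m * N1 z - c0 * dv v z) ^ 2 ∂(gI ι) := by
    have hm0 : m ≠ 0 := by
      have := hm1.1
      intro h
      rw [h] at this
      norm_num at this
    have h1 : ∫ z, W z * (m * N1 z - c0 * dv v z) ^ 2 ∂(gI ι) =
        m ^ 2 * ∫ z, W z * (N1 z - c0 / m * dv v z) ^ 2 ∂(gI ι) := by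
      rw [← wcm]
      congr 1
      funext z
      congr 1
      field_simp
    rw [h1]
    have h2 := hν (c0 / m)
    have h3 : 3 / 4 ≤ m ^ 2 := by nlinarith [hm1.1]
    calc 3 / 4 * ν ≤ m ^ 2 * ν := mul_le_mul_of_nonneg_right h3 hν0
      _ ≤ _ := mul_le_mul_of_nonneg_left h2 (sq_nonneg m)
  have hdF := Q.dF
  have hηη : η ^ 2 ≤ η := by nlinarith [Q.hη, Q.hη1]
  have hd16 : (4 * η) ^ 2 = 16 * η ^ 2 := by ring
  rw [hd16] at hdF
  rw [← hK]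
  linarith

/-- The norm of `k` is at most the norm of the first function. -/
theorem knorm (Q : Fr x Λ η σ W N1 N2 u n1 n2 v U1 F k) {ν : ℝ} (hν0 : 0 ≤ ν)
    (hν : ∀ l : ℝ, ν ≤ ∫ z, W z * (N1 z - l * dv v z) ^ 2 ∂(gI ι))
    (hc : 60 * (x * σ ^ 2 * ∫ z, W z * N1 z ^ 2 ∂(gI ι)) ≤ ν + 6 * η) :
    ∫ z, W z * k (dv v z) ^ 2 ∂(gI ι) ≤ ∫ z, W z * N1 z ^ 2 ∂(gI ι) + 140 * η := by
  have hW := Q.D.egW
  have h0 := Q.W0
  have ek := eg_comp_dv Q.ck v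
  obtain ⟨k1, hk1⟩ : ∃ k1 : ℝ → ℝ, ∀ t, k1 t = k t * (t - x * σ * F t) - F t :=
    ⟨_, fun _ => rfl⟩
  have hk1f : k1 = fun t => k t * (t - x * σ * F t) - F t := funext hk1
  have dk : ∀ t, HasDerivAt k (k1 t) t := fun t => by rw [hk1]; exact Q.dk t
  have ck1 : CcE k1 := by rw [hk1f]; exact Q.ck1
  have bk1 : ∫ z, W z * k1 (dv v z) ^ 2 ∂(gI ι) ≤ 17 ^ 2 := by
    rw [hk1f]; exact Q.bk1
  have eF := eg_comp_dv Q.ccF v
  have eN := Q.D.e1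
  have eC := Q.eC v
  have i2 := Q.idn dk Q.ck ck1 (fun t => (Q.bk t).trans (by norm_num)) bk1
  have u4 := Q.klow hν0 hν hk1
  obtain ⟨K, hK⟩ : ∃ K, K = ∫ z, W z * k1 (dv v z) ^ 2 ∂(gI ι) := ⟨_, rfl⟩
  have hK0 : 0 ≤ K := by
    rw [hK]; exact integral_nonneg fun z => mul_nonneg (h0 z) (sq_nonneg _)
  rw [← hK] at u4
  obtain ⟨A, hA⟩ : ∃ A, A = ∫ z, W z * N1 z ^ 2 ∂(gI ι) := ⟨_, rfl⟩
  obtain ⟨S, hS⟩ : ∃ S, S = ∫ z, W z * k (dv v z) ^ 2 ∂(gI ι) := ⟨_, rfl⟩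
  have hS0 : 0 ≤ S := by
    rw [hS]; exact integral_nonneg fun z => mul_nonneg (h0 z) (sq_nonneg _)
  -- second identity, lower bound
  have c2 : ∫ z, W z * (k (dv v z) ^ 2 * ∑ j, v j * n1 j z) ∂(gI ι) ≤ 4 * σ * S + 64 * η := by
    have eU := Q.eU
    have h1 : ∫ z, W z * (k (dv v z) ^ 2 * ∑ j, v j * n1 j z) ∂(gI ι) =
        ∫ z, W z * (k (dv v z) ^ 2 * (U1 z * σ)) ∂(gI ι) +
          ∫ z, W z * (k (dv v z) ^ 2 * (∑ j, v j * n1 j z - U1 z * σ)) ∂(gI ι) := by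
      rw [← wadd hW ((ek.pow 2).mul (eg_mul_right eU _))
        ((ek.pow 2).mul (eC.sub (eg_mul_right eU _)))]
      congr 1
      funext z
      ring
    have h2 : ∫ z, W z * (k (dv v z) ^ 2 * (U1 z * σ)) ∂(gI ι) ≤
        ∫ z, W z * (4 * σ * k (dv v z) ^ 2) ∂(gI ι) := by
      refine wmono hW h0 ((ek.pow 2).mul (eg_mul_right eU _)) ((ek.pow 2).const_mul _)
        fun z => ?_
      have h3 : U1 z * σ ≤ 4 * σ := mul_le_mul_of_nonneg_right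
        ((le_abs_self _).trans (Q.bU z)) Q.hσ
      have := mul_le_mul_of_nonneg_left h3 (sq_nonneg (k (dv v z)))
      linarith
    rw [wcm, ← hS] at h2
    have h3 : |∫ z, W z * (k (dv v z) ^ 2 * (∑ j, v j * n1 j z - U1 z * σ)) ∂(gI ι)| ≤
        64 * η := by
      refine wb hW h0 Q.D.one (ek.pow 2) (eC.sub (eg_mul_right eU _)) (fun z => ?_) Q.hη Q.hw2
      rw [abs_of_nonneg (sq_nonneg _), ← sq_abs]
      nlinarith [Q.bk (dv v z), abs_nonneg (k (dv v z))]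
    rw [h1]
    linarith [(abs_le.1 h3).2]
  have e2 : ∀ t, k t * (t - x * σ * F t) - k1 t = F t := fun t => by rw [hk1]; ring
  simp only [e2] at i2
  rw [← hK, ← hS] at i2
  have u5 : ∫ z, W z * F (dv v z) ^ 2 ∂(gI ι) ≤ A + 16 * η := by
    have h1 : ∫ z, W z * F (dv v z) ^ 2 ∂(gI ι) = ∫ z, W z * N1 z ^ 2 ∂(gI ι) -
        ∫ z, W z * ((N1 z + F (dv v z)) * (N1 z - F (dv v z))) ∂(gI ι) := by
      rw [← wsub hW (eN.pow 2) ((eN.add eF).mul (eN.sub eF))]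
      congr 1
      funext z
      ring
    have h2 : |∫ z, W z * ((N1 z + F (dv v z)) * (N1 z - F (dv v z))) ∂(gI ι)| ≤
        4 * (4 * η) := by
      refine wb hW h0 Q.D.one (eN.add eF) (eN.sub eF) (fun z => ?_) (by linarith [Q.hη]) Q.dF
      exact (abs_add_le _ _).trans (by linarith [Q.D.b1 z, Q.bF (dv v z)])
    rw [h1, ← hA]
    linarith [(abs_le.1 h2).1]
  have u6 := (abs_le.1 i2).1
  have c3 := mul_le_mul_of_nonneg_left c2 Q.a0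
  rw [← hA] at hc
  rw [← hA]
  -- final numbers
  obtain ⟨s, hs⟩ : ∃ s, s = x * σ ^ 2 := ⟨_, rfl⟩
  have hs0 : 0 ≤ s := by rw [hs]; exact mul_nonneg Q.hx (sq_nonneg _)
  have hs1 : s ≤ 1 / 64 := by
    rw [hs]
    have : σ ^ 2 ≤ Λ ^ 2 := pow_le_pow_left₀ Q.hσ Q.hσΛ 2
    have := mul_le_mul_of_nonneg_left this Q.hx
    linarith [Q.hxΛ]
  rw [← hs] at hc
  have c4 : x * σ * (4 * σ * S + 64 * η) = 4 * (s * S) + 64 * (x * σ) * η := by
    rw [hs]; ring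
  rw [c4] at c3
  have c5 : 64 * (x * σ) * η ≤ 1 * η := mul_le_mul_of_nonneg_right (by linarith [Q.a1]) Q.hη
  have v1 : S + K ≤ A + 107 * η + 4 * (s * S) := by linarith
  rw [← hS]
  exact fin_num hν0 Q.hη hs0 hs1 hS0 v1 u4 hK0 hc

end Fr

end Vale.Agent.P146.H246.Mc
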