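import Vale.Agent.P146.H246.Mc6

/-!
Maximal correlation of two functions of nearly one Gaussian variable, part 7: Bessel's inequality
with the first function and the function `k(v·z) (e·z)`; the theorem.
-/

open MeasureTheory ProbabilityTheory Filter Topology

namespace Vale.Agent.P146.H246.Mc

open Vale.Agent.P157.Lv Vale.Agent.P146.H329

set_option linter.unusedSectionVars false

variable {ι : Type} [Fintype ι] [DecidableEq ι]

lemma bess_num {κ q r J n12 A1 A2 B1 B2 P η α : ℝ} (hη : 0 ≤ η) (hq : q = r ^ 2)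
    (hB1 : |B1| ≤ 9 * (r * η)) (hB2 : |B2 - q * J| ≤ 9 * (r * η)) (hJ : |κ * J - n12| ≤ 18 * η)
    (hP : P ≤ q * (A1 + 140 * η) + 2 * (q * η))
    (h0 : 0 ≤ κ ^ 2 * A2 + α ^ 2 * κ ^ 2 * A1 + α ^ 2 * P - 2 * α * κ ^ 2 * n12 -
      2 * α * κ * B2 + 2 * α ^ 2 * κ * B1) :
    2 * α * ((κ ^ 2 + q) * n12) ≤ κ ^ 2 * A2 + α ^ 2 * ((κ ^ 2 + q) * A1) +
      (46 * |α| + 151 * α ^ 2) * ((κ ^ 2 + q) * η) := by
  have hq0 : 0 ≤ q := by rw [hq]; positivity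
  have k1 : |κ| * r ≤ (κ ^ 2 + q) / 2 := by
    rw [hq, ← sq_abs κ]; nlinarith [sq_nonneg (|κ| - r)]
  have t1 : -(2 * α * κ * (B2 - q * J)) ≤ 9 * |α| * ((κ ^ 2 + q) * η) := by
    refine (neg_le_abs _).trans ?_
    have : |2 * α * κ * (B2 - q * J)| = 2 * |α| * |κ| * |B2 - q * J| := by
      rw [abs_mul, abs_mul, abs_mul, abs_two]
    rw [this]
    have h1 : 2 * |α| * |κ| * |B2 - q * J| ≤ 2 * |α| * |κ| * (9 * (r * η)) :=
      mul_le_mul_of_nonneg_left hB2 (by positivity)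
    have h2 : 18 * |α| * η * (|κ| * r) ≤ 18 * |α| * η * ((κ ^ 2 + q) / 2) :=
      mul_le_mul_of_nonneg_left k1 (by positivity)
    linarith
  have t2 : -(2 * α * q * (κ * J - n12)) ≤ 36 * |α| * (q * η) := by
    refine (neg_le_abs _).trans ?_
    have : |2 * α * q * (κ * J - n12)| = 2 * |α| * q * |κ * J - n12| := by
      rw [abs_mul, abs_mul, abs_mul, abs_two, abs_of_nonneg hq0]
    rw [this]
    have h1 : 2 * |α| * q * |κ * J - n12| ≤ 2 * |α| * q * (18 * η) :=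
      mul_le_mul_of_nonneg_left hJ (by positivity)
    linarith
  have t3 : 2 * α ^ 2 * κ * B1 ≤ 9 * α ^ 2 * ((κ ^ 2 + q) * η) := by
    refine (le_abs_self _).trans ?_
    have : |2 * α ^ 2 * κ * B1| = 2 * α ^ 2 * |κ| * |B1| := by
      rw [abs_mul, abs_mul, abs_mul, abs_two, abs_of_nonneg (sq_nonneg α)]
    rw [this]
    have h1 : 2 * α ^ 2 * |κ| * |B1| ≤ 2 * α ^ 2 * |κ| * (9 * (r * η)) :=
      mul_le_mul_of_nonneg_left hB1 (by positivity)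
    have h2 : 18 * α ^ 2 * η * (|κ| * r) ≤ 18 * α ^ 2 * η * ((κ ^ 2 + q) / 2) :=
      mul_le_mul_of_nonneg_left k1 (by positivity)
    linarith
  have t4 : α ^ 2 * P ≤ α ^ 2 * (q * (A1 + 140 * η) + 2 * (q * η)) :=
    mul_le_mul_of_nonneg_left hP (sq_nonneg _)
  have t5 : 0 ≤ α ^ 2 * (κ ^ 2 * η) := by positivity
  have t6 : 0 ≤ |α| * (κ ^ 2 * η) := by positivity
  have t7 : 0 ≤ |α| * (q * η) := by positivity
  have e1 : 2 * α * κ * B2 = 2 * α * κ * (B2 - q * J) + 2 * α * q * (κ * J - n12) +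
      2 * α * q * n12 := by ring
  rw [e1] at h0
  nlinarith [t1, t2, t3, t4, t5, t6, t7, h0]

namespace Fr

variable {x Λ η σ : ℝ} {W N1 N2 : (ι → ℝ) → ℝ} {u n1 n2 : ι → (ι → ℝ) → ℝ} {v : ι → ℝ}
    {U1 : (ι → ℝ) → ℝ} {F k : ℝ → ℝ}

/-- Bessel's inequality, linear form. -/
theorem bess (Q : Fr x Λ η σ W N1 N2 u n1 n2 v U1 F k) {κ : ℝ} {e : ι → ℝ}
    (he : ∑ j, e j * v j = 0) {U2 : (ι → ℝ) → ℝ} (eU2 : EG U2)
    (E3 : ∫ z, W z * ∑ j, (n2 j z - U2 z * (κ * v j + e j)) ^ 2 ∂(gI ι) ≤ η ^ 2)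
    (hk : ∫ z, W z * k (dv v z) ^ 2 ∂(gI ι) ≤ ∫ z, W z * N1 z ^ 2 ∂(gI ι) + 140 * η) (α : ℝ) :
    2 * α * ((κ ^ 2 + ∑ j, e j ^ 2) * ∫ z, W z * (N1 z * N2 z) ∂(gI ι)) ≤
      κ ^ 2 * ∫ z, W z * N2 z ^ 2 ∂(gI ι) +
      α ^ 2 * ((κ ^ 2 + ∑ j, e j ^ 2) * ∫ z, W z * N1 z ^ 2 ∂(gI ι)) +
      (46 * |α| + 151 * α ^ 2) * ((κ ^ 2 + ∑ j, e j ^ 2) * η) := by
  have hW := Q.D.egW
  have h0 := Q.W0
  have eu := Q.D.eu Q.L0
  have en1 := Q.D.en1 Q.L0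
  have en2 := Q.D.en2 Q.L0
  have ek := eg_comp_dv Q.ck v
  have eF := eg_comp_dv Q.ccF v
  have eN1 := Q.D.e1
  have eN2 := Q.D.e2
  have ed := eg_dv e
  have et := eg_dv v
  obtain ⟨q, hq⟩ : ∃ q, q = ∑ j, e j ^ 2 := ⟨_, rfl⟩
  have hq0 : 0 ≤ q := by rw [hq]; exact Finset.sum_nonneg fun i _ => sq_nonneg _
  have hqq : ∑ j, e j * e j = q := by
    rw [hq]; exact Finset.sum_congr rfl fun j _ => by ring
  have hvv : ∑ j, v j * v j = 1 := by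
    rw [← Q.hv]; exact Finset.sum_congr rfl fun j _ => by ring
  have hve : ∑ j, v j * e j = 0 := by
    rw [← he]; exact Finset.sum_congr rfl fun j _ => by ring
  obtain ⟨r, hr⟩ : ∃ r, r = √q := ⟨_, rfl⟩
  have hr0 : 0 ≤ r := by rw [hr]; exact Real.sqrt_nonneg _
  have hqr : q = r ^ 2 := by rw [hr, Real.sq_sqrt hq0]
  -- errors
  obtain ⟨c0, hc0⟩ : ∃ c : (ι → ℝ) → ℝ, c = fun z => ∑ j, e j * u j z := ⟨_, rfl⟩
  obtain ⟨c1, hc1⟩ : ∃ c : (ι → ℝ) → ℝ, c = fun z => ∑ j, e j * n1 j z := ⟨_, rfl⟩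
  obtain ⟨c2, hc2⟩ : ∃ c : (ι → ℝ) → ℝ, c = fun z => ∑ j, e j * (n2 j z -
    U2 z * (κ * v j + e j)) := ⟨_, rfl⟩
  obtain ⟨c3, hc3⟩ : ∃ c : (ι → ℝ) → ℝ, c = fun z => ∑ j, v j * (n2 j z -
    U2 z * (κ * v j + e j)) := ⟨_, rfl⟩
  obtain ⟨w, hw⟩ : ∃ w : (ι → ℝ) → ℝ, w = fun z => ∑ j, v j * u j z - N1 z * σ := ⟨_, rfl⟩
  obtain ⟨d, hd⟩ : ∃ d : (ι → ℝ) → ℝ, d = fun z => N1 z - F (dv v z) := ⟨_, rfl⟩
  have ey2 : ∀ j, EG fun z => n2 j z - U2 z * (κ * v j + e j) := fun j =>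
    (en2 j).sub (eg_mul_right eU2 _)
  have e0 : EG c0 := by rw [hc0]; exact Q.eV e
  have e1 : EG c1 := by rw [hc1]; exact Q.eC e
  have e2 : EG c2 := by rw [hc2]; exact EG.sum Finset.univ fun j _ => (ey2 j).const_mul _
  have e3 : EG c3 := by rw [hc3]; exact EG.sum Finset.univ fun j _ => (ey2 j).const_mul _
  have ew : EG w := by rw [hw]; exact (Q.eV v).sub (eg_mul_right eN1 _)
  have edd : EG d := by rw [hd]; exact eN1.sub eF
  have b0 : ∫ z, W z * c0 z ^ 2 ∂(gI ι) ≤ (r * η) ^ 2 := by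
    have h := dirb hW h0 (y := fun e z => u e z - N1 z * (σ * v e))
      (fun j => (eu j).sub (eg_mul_right eN1 _)) Q.E1 e
    rw [← hq, hqr] at h
    refine le_trans (le_of_eq ?_) (h.trans (le_of_eq (by ring)))
    congr 1
    funext z
    congr 2
    have : ∑ j, e j * (u j z - N1 z * (σ * v j)) =
        ∑ j, e j * u j z - N1 z * σ * ∑ j, e j * v j := by
      rw [Finset.mul_sum, ← Finset.sum_sub_distrib]
      exact Finset.sum_congr rfl fun j _ => by ring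
    rw [this, he, hc0]; ring
  have b1 : ∫ z, W z * c1 z ^ 2 ∂(gI ι) ≤ (r * η) ^ 2 := by
    have h := dirb hW h0 (y := fun e z => n1 e z - U1 z * (σ * v e))
      (fun j => (en1 j).sub (eg_mul_right Q.eU _)) Q.E2 e
    rw [← hq, hqr] at h
    refine le_trans (le_of_eq ?_) (h.trans (le_of_eq (by ring)))
    congr 1
    funext z
    congr 2
    have : ∑ j, e j * (n1 j z - U1 z * (σ * v j)) =
        ∑ j, e j * n1 j z - U1 z * σ * ∑ j, e j * v j := by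
      rw [Finset.mul_sum, ← Finset.sum_sub_distrib]
      exact Finset.sum_congr rfl fun j _ => by ring
    rw [this, he, hc1]; ring
  have b2 : ∫ z, W z * c2 z ^ 2 ∂(gI ι) ≤ (r * η) ^ 2 := by
    have h := dirb hW h0 ey2 E3 e
    rw [← hq, hqr] at h
    rw [hc2]
    exact h.trans (le_of_eq (by ring))
  have b3 : ∫ z, W z * c3 z ^ 2 ∂(gI ι) ≤ η ^ 2 := by
    have h := dirb hW h0 ey2 E3 v
    rw [Q.hv, one_mul] at h
    rw [hc3]
    exact h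
  have bw : ∫ z, W z * w z ^ 2 ∂(gI ι) ≤ η ^ 2 := by rw [hw]; exact Q.hw
  have bd : ∫ z, W z * d z ^ 2 ∂(gI ι) ≤ (4 * η) ^ 2 := by rw [hd]; exact Q.dF
  have hrη : 0 ≤ r * η := mul_nonneg hr0 Q.hη
  have kN : ∀ {N : (ι → ℝ) → ℝ}, (∀ z, |N z| ≤ 2) → ∀ z, |k (dv v z) * N z| ≤ 16 := by
    intro N hN z
    rw [abs_mul]
    calc |k (dv v z)| * |N z| ≤ 8 * 2 := mul_le_mul (Q.bk _) (hN z) (abs_nonneg _) (by norm_num)
      _ = 16 := by norm_num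
  have hx := Q.hx
  have x1 := Q.x1
  have aη : x * η ≤ 1 / 64 * η := mul_le_mul_of_nonneg_right x1 Q.hη
  have arη : x * (r * η) ≤ 1 / 64 * (r * η) := mul_le_mul_of_nonneg_right x1 hrη
  -- P1
  obtain ⟨B1, hB1⟩ : ∃ B, B = ∫ z, W z * (N1 z * (k (dv v z) * dv e z)) ∂(gI ι) := ⟨_, rfl⟩
  have P1 : |B1| ≤ 9 * (r * η) := by
    have S := st2 Q.D.fW hW eu Q.dk Q.ck Q.ck1 Q.D.f1 eN1 en1 v e
    have h1 : B1 = ∫ z, W z * (k (dv v z) * c1 z) ∂(gI ι) +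
        x * ∫ z, W z * ((k (dv v z) * N1 z) * c0 z) ∂(gI ι) := by
      have h2 : B1 - (∫ z, W z * (k (dv v z) * c1 z) ∂(gI ι) +
        x * ∫ z, W z * ((k (dv v z) * N1 z) * c0 z) ∂(gI ι)) = 0 := by
        rw [← S, hB1, ← wcm, ← wadd hW (ek.mul e1) (((ek.mul eN1).mul e0).const_mul x),
          ← wsub hW (eN1.mul (ek.mul ed)) ((ek.mul e1).add (((ek.mul eN1).mul e0).const_mul x))]
        congr 1
        funext z
        rw [he, hc0, hc1]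
        ring
      linarith
    have h3 : |∫ z, W z * (k (dv v z) * c1 z) ∂(gI ι)| ≤ 8 * (r * η) :=
      wb hW h0 Q.D.one ek e1 (fun z => Q.bk _) hrη b1
    have h4 : |∫ z, W z * ((k (dv v z) * N1 z) * c0 z) ∂(gI ι)| ≤ 16 * (r * η) :=
      wb hW h0 Q.D.one (ek.mul eN1) e0 (kN Q.D.b1) hrη b0
    rw [h1]
    refine (abs_add_le _ _).trans ?_
    rw [abs_mul, abs_of_nonneg hx]
    have h5 := mul_le_mul_of_nonneg_left h4 hx
    linarith
  -- P2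
  obtain ⟨J, hJ⟩ : ∃ J, J = ∫ z, W z * (k (dv v z) * U2 z) ∂(gI ι) := ⟨_, rfl⟩
  obtain ⟨B2, hB2⟩ : ∃ B, B = ∫ z, W z * (N2 z * (k (dv v z) * dv e z)) ∂(gI ι) := ⟨_, rfl⟩
  have hse : ∀ z, ∑ j, e j * n2 j z = c2 z + U2 z * q := by
    intro z
    have : c2 z = ∑ j, e j * n2 j z - U2 z * κ * ∑ j, e j * v j - U2 z * ∑ j, e j * e j := by
      rw [hc2]
      simp only [Finset.mul_sum, ← Finset.sum_sub_distrib]
      exact Finset.sum_congr rfl fun j _ => by ring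
    rw [this, he, hqq]; ring
  have hsv : ∀ z, ∑ j, v j * n2 j z = c3 z + U2 z * κ := by
    intro z
    have : c3 z = ∑ j, v j * n2 j z - U2 z * κ * ∑ j, v j * v j - U2 z * ∑ j, v j * e j := by
      rw [hc3]
      simp only [Finset.mul_sum, ← Finset.sum_sub_distrib]
      exact Finset.sum_congr rfl fun j _ => by ring
    rw [this, hve, hvv]; ring
  have P2 : |B2 - q * J| ≤ 9 * (r * η) := by
    have S := st2 Q.D.fW hW eu Q.dk Q.ck Q.ck1 Q.D.f2 eN2 en2 v e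
    have h1 : B2 - q * J = ∫ z, W z * (k (dv v z) * c2 z) ∂(gI ι) +
        x * ∫ z, W z * ((k (dv v z) * N2 z) * c0 z) ∂(gI ι) := by
      have h2 : B2 - q * J - (∫ z, W z * (k (dv v z) * c2 z) ∂(gI ι) +
        x * ∫ z, W z * ((k (dv v z) * N2 z) * c0 z) ∂(gI ι)) = 0 := by
        rw [← S, hB2, hJ, ← wcm, ← wcm, ← wadd hW (ek.mul e2)
            (((ek.mul eN2).mul e0).const_mul x),
          ← wsub hW (eN2.mul (ek.mul ed)) ((ek.mul eU2).const_mul q),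
          ← wsub hW ((eN2.mul (ek.mul ed)).sub ((ek.mul eU2).const_mul q))
            ((ek.mul e2).add (((ek.mul eN2).mul e0).const_mul x))]
        congr 1
        funext z
        rw [he, hse, hc0]
        ring
      linarith
    have h3 : |∫ z, W z * (k (dv v z) * c2 z) ∂(gI ι)| ≤ 8 * (r * η) :=
      wb hW h0 Q.D.one ek e2 (fun z => Q.bk _) hrη b2
    have h4 : |∫ z, W z * ((k (dv v z) * N2 z) * c0 z) ∂(gI ι)| ≤ 16 * (r * η) :=
      wb hW h0 Q.D.one (ek.mul eN2) e0 (kN Q.D.b2) hrη b0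
    rw [h1]
    refine (abs_add_le _ _).trans ?_
    rw [abs_mul, abs_of_nonneg hx]
    have h5 := mul_le_mul_of_nonneg_left h4 hx
    linarith
  -- P3
  obtain ⟨n12, hn12⟩ : ∃ n, n = ∫ z, W z * (N1 z * N2 z) ∂(gI ι) := ⟨_, rfl⟩
  have P3 : |κ * J - n12| ≤ 18 * η := by
    have S := st2 Q.D.fW hW eu Q.dk Q.ck Q.ck1 Q.D.f2 eN2 en2 v v
    have h1 : κ * J - n12 = -∫ z, W z * (N2 z * d z) ∂(gI ι) -
        (x * σ) * ∫ z, W z * ((k (dv v z) * N2 z) * d z) ∂(gI ι) -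
        x * ∫ z, W z * ((k (dv v z) * N2 z) * w z) ∂(gI ι) -
        ∫ z, W z * (k (dv v z) * c3 z) ∂(gI ι) := by
      have h2 : n12 - κ * J - ∫ z, W z * (N2 z * d z) ∂(gI ι) -
        (x * σ) * ∫ z, W z * ((k (dv v z) * N2 z) * d z) ∂(gI ι) -
        x * ∫ z, W z * ((k (dv v z) * N2 z) * w z) ∂(gI ι) -
        ∫ z, W z * (k (dv v z) * c3 z) ∂(gI ι) = 0 := by
        have g1 := eN1.mul eN2
        have g2 := (ek.mul eU2).const_mul κ
        have g3 := eN2.mul edd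
        have g4 := ((ek.mul eN2).mul edd).const_mul (x * σ)
        have g5 := ((ek.mul eN2).mul ew).const_mul x
        have g6 := ek.mul e3
        rw [← S, hn12, hJ, ← wcm, ← wcm, ← wcm, ← wsub hW g1 g2, ← wsub hW (g1.sub g2) g3,
          ← wsub hW ((g1.sub g2).sub g3) g4, ← wsub hW (((g1.sub g2).sub g3).sub g4) g5,
          ← wsub hW ((((g1.sub g2).sub g3).sub g4).sub g5) g6]
        congr 1
        funext z
        rw [hvv, hsv, hw, hd]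
        ring
      linarith
    have h3 : |∫ z, W z * (N2 z * d z) ∂(gI ι)| ≤ 2 * (4 * η) :=
      wb hW h0 Q.D.one eN2 edd Q.D.b2 (by linarith [Q.hη]) bd
    have h4 : |∫ z, W z * ((k (dv v z) * N2 z) * d z) ∂(gI ι)| ≤ 16 * (4 * η) :=
      wb hW h0 Q.D.one (ek.mul eN2) edd (kN Q.D.b2) (by linarith [Q.hη]) bd
    have h5 : |∫ z, W z * ((k (dv v z) * N2 z) * w z) ∂(gI ι)| ≤ 16 * η :=
      wb hW h0 Q.D.one (ek.mul eN2) ew (kN Q.D.b2) Q.hη bw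
    have h6 : |∫ z, W z * (k (dv v z) * c3 z) ∂(gI ι)| ≤ 8 * η :=
      wb hW h0 Q.D.one ek e3 (fun z => Q.bk _) Q.hη b3
    have h7 : |(x * σ) * ∫ z, W z * ((k (dv v z) * N2 z) * d z) ∂(gI ι)| ≤
        (1 / 64) * (16 * (4 * η)) := by
      rw [abs_mul, abs_of_nonneg Q.a0]
      exact mul_le_mul Q.a1 h4 (abs_nonneg _) (by norm_num)
    have h8 : |x * ∫ z, W z * ((k (dv v z) * N2 z) * w z) ∂(gI ι)| ≤ (1 / 64) * (16 * η) := by
      rw [abs_mul, abs_of_nonneg hx]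
      exact mul_le_mul x1 h5 (abs_nonneg _) (by norm_num)
    rw [h1]
    rw [abs_le] at h3 h6 h7 h8 ⊢
    have := Q.hη
    constructor <;> linarith [h3.1, h3.2, h6.1, h6.2, h7.1, h7.2, h8.1, h8.2]
  -- P4
  obtain ⟨P, hP⟩ : ∃ P, P = ∫ z, W z * (k (dv v z) * dv e z) ^ 2 ∂(gI ι) := ⟨_, rfl⟩
  have P4 : P ≤ q * (∫ z, W z * N1 z ^ 2 ∂(gI ι) + 140 * η) + 2 * (q * η) := by
    have dk2 : ∀ t, HasDerivAt (fun t => k t ^ 2)
        (2 * k t * (k t * (t - x * σ * F t) - F t)) t := by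
      intro t
      refine ((Q.dk t).fun_pow 2).congr_deriv ?_
      push_cast
      ring
    have S := st2 Q.D.fW hW eu dk2 Q.ck.sq ((Q.ck.cm 2).mul Q.ck1) (fd_dv e) ed
      (fun j => EG.const (e j)) v e
    have h1 : P = q * ∫ z, W z * k (dv v z) ^ 2 ∂(gI ι) +
        x * ∫ z, W z * ((k (dv v z) ^ 2 * dv e z) * c0 z) ∂(gI ι) := by
      have h2 : P - q * ∫ z, W z * k (dv v z) ^ 2 ∂(gI ι) -
        x * ∫ z, W z * ((k (dv v z) ^ 2 * dv e z) * c0 z) ∂(gI ι) = 0 := by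
        rw [← S, hP, ← wcm, ← wcm, ← wsub hW ((ek.mul ed).pow 2) ((ek.pow 2).const_mul q),
          ← wsub hW (((ek.mul ed).pow 2).sub ((ek.pow 2).const_mul q))
            ((((ek.pow 2).mul ed).mul e0).const_mul x)]
        congr 1
        funext z
        rw [he, hqq, hc0]
        ring
      linarith
    have h3 : ∫ z, W z * (k (dv v z) ^ 2 * dv e z) ^ 2 ∂(gI ι) ≤ (91 * r) ^ 2 := by
      have := wbd hW h0 ((ek.pow 2).mul ed) ed (H := 64) fun z => by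
        rw [abs_mul, abs_of_nonneg (sq_nonneg (k (dv v z)))]
        refine mul_le_mul_of_nonneg_right ?_ (abs_nonneg _)
        rw [← sq_abs]; nlinarith [Q.bk (dv v z), abs_nonneg (k (dv v z))]
      have h4 := wlin Q.D hx Q.hΛ Q.hxΛ e
      rw [← hq, hqr] at h4
      have h5 : 0 ≤ r ^ 2 := sq_nonneg r
      have h6 : (91 * r) ^ 2 = 8281 * r ^ 2 := by ring
      rw [h6]
      linarith
    have h4 : |∫ z, W z * ((k (dv v z) ^ 2 * dv e z) * c0 z) ∂(gI ι)| ≤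
        (91 * r) * (r * η) := wb2 hW h0 ((ek.pow 2).mul ed) e0 (by positivity) hrη h3 b0
    have h5 : x * ∫ z, W z * ((k (dv v z) ^ 2 * dv e z) * c0 z) ∂(gI ι) ≤ 2 * (q * η) := by
      have h6 : (91 * r) * (r * η) = 91 * (q * η) := by rw [hqr]; ring
      rw [h6] at h4
      have h7 := mul_le_mul_of_nonneg_left ((le_abs_self _).trans h4) hx
      have h8 : 0 ≤ q * η := mul_nonneg hq0 Q.hη
      have h9 : x * (91 * (q * η)) ≤ 1 / 64 * (91 * (q * η)) :=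
        mul_le_mul_of_nonneg_right x1 (by linarith)
      linarith
    rw [h1]
    exact add_le_add (mul_le_mul_of_nonneg_left hk hq0) h5
  -- Bessel
  have B0 : 0 ≤ ∫ z, W z * (κ * N2 z - α * κ * N1 z - α * (k (dv v z) * dv e z)) ^ 2 ∂(gI ι) :=
    integral_nonneg fun z => mul_nonneg (h0 z) (sq_nonneg _)
  have B3 : ∫ z, W z * (κ * N2 z - α * κ * N1 z - α * (k (dv v z) * dv e z)) ^ 2 ∂(gI ι) =
      κ ^ 2 * ∫ z, W z * N2 z ^ 2 ∂(gI ι) + α ^ 2 * κ ^ 2 * ∫ z, W z * N1 z ^ 2 ∂(gI ι) +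
      α ^ 2 * P - 2 * α * κ ^ 2 * n12 - 2 * α * κ * B2 + 2 * α ^ 2 * κ * B1 := by
    have g1 := (eN2.pow 2).const_mul (κ ^ 2)
    have g2 := (eN1.pow 2).const_mul (α ^ 2 * κ ^ 2)
    have g3 := ((ek.mul ed).pow 2).const_mul (α ^ 2)
    have g4 := (eN1.mul eN2).const_mul (2 * α * κ ^ 2)
    have g5 := (eN2.mul (ek.mul ed)).const_mul (2 * α * κ)
    have g6 := (eN1.mul (ek.mul ed)).const_mul (2 * α ^ 2 * κ)
    rw [hP, hn12, hB1, hB2, ← wcm, ← wcm, ← wcm, ← wcm, ← wcm, ← wcm, ← wadd hW g1 g2,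
      ← wadd hW (g1.add g2) g3, ← wsub hW ((g1.add g2).add g3) g4,
      ← wsub hW (((g1.add g2).add g3).sub g4) g5,
      ← wadd hW ((((g1.add g2).add g3).sub g4).sub g5) g6]
    congr 1
    funext z
    ring
  rw [B3] at B0
  rw [← hq, ← hn12]
  exact bess_num Q.hη hqr P1 P2 P3 P4 B0

end Fr

end Vale.Agent.P146.H246.Mc
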