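import Vale.Agent.P146.H118.Rank
import Vale.Agent.P146.H646.Blk
import Vale.Agent.P146.H246.Law

/-!
Transfer between coordinate systems with several levels and the block form of `H332`/`H118`.

`κ` is the set of the coordinates with levels, `p : κ → ι` gives the basic coordinate, `c` the
coefficients, `lf p c z e = ∑ j with p j = e, c j * z j`. For a set `K` of frozen coordinates of
`κ`, the position is `lf p (re K c) z`; `vf p (re K c) e` is the share of `e` which is frozen and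
`vf p (co K c) e` the share which is integrated out.
-/

open MeasureTheory ProbabilityTheory

namespace Vale.Agent.P146.H246

open Vale.Agent.P157.Lv Vale.Agent.P146.H425 Vale.Agent.P146.H332 Vale.Agent.P146.H646
open Vale.Agent.P146.H325 (Tc)

set_option linter.unusedSectionVars false

variable {κ ι : Type} [Fintype κ] [DecidableEq κ] [Fintype ι] [DecidableEq ι]

/-- the coefficients on `K` -/
def re (K : Finset κ) (c : κ → ℝ) : κ → ℝ := fun j => if j ∈ K then c j else 0

/-- the coefficients off `K` -/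
def co (K : Finset κ) (c : κ → ℝ) : κ → ℝ := fun j => if j ∈ K then 0 else c j

variable {p : κ → ι} {c : κ → ℝ} {K : Finset κ}

lemma re_add_co (K : Finset κ) (c : κ → ℝ) (j : κ) : re K c j + co K c j = c j := by
  unfold re co
  split_ifs <;> simp

lemma re_sq_add_co_sq (K : Finset κ) (c : κ → ℝ) (j : κ) :
    re K c j ^ 2 + co K c j ^ 2 = c j ^ 2 := by
  unfold re co
  split_ifs <;> simp

lemma lf_split (K : Finset κ) (z : κ → ℝ) (e : ι) :
    lf p c z e = lf p (re K c) z e + lf p (co K c) z e := by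
  unfold lf
  rw [← Finset.sum_add_distrib]
  refine Finset.sum_congr rfl fun j _ => ?_
  rw [← add_mul, re_add_co]

/-- the shares add up -/
lemma vf_split (p : κ → ι) (c : κ → ℝ) (K : Finset κ) (e : ι) :
    vf p (re K c) e + vf p (co K c) e = vf p c e := by
  unfold vf
  rw [← Finset.sum_add_distrib]
  exact Finset.sum_congr rfl fun j _ => re_sq_add_co_sq K c j

lemma lf_re_glue (z z' : κ → ℝ) (e : ι) :
    lf p (re K c) (glue K z z') e = lf p (re K c) z e := by
  unfold lf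
  refine Finset.sum_congr rfl fun j _ => ?_
  unfold re glue
  split_ifs <;> simp

lemma lf_co_glue (z z' : κ → ℝ) (e : ι) :
    lf p (co K c) (glue K z z') e = lf p (co K c) z' e := by
  unfold lf
  refine Finset.sum_congr rfl fun j _ => ?_
  unfold co glue
  split_ifs <;> simp

/-- the sum over the levels of a glued point -/
lemma lf_glue (z z' : κ → ℝ) :
    lf p c (glue K z z') = fun e => lf p (re K c) z e + lf p (co K c) z' e := by
  funext e
  rw [lf_split K, lf_re_glue, lf_co_glue]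

/-! ### (F1) -/

/-- **(F1)** integrating out the coordinates off `K` -/
theorem int_co {G : (ι → ℝ) → ℝ} (hG : Measurable G) (u : ι → ℝ) :
    ∫ z, G (fun e => u e + lf p (co K c) z e) ∂(gI κ) = Tc (vf p (co K c)) G u := by
  have h : Measurable fun y : ι → ℝ => G (fun e => u e + y e) := hG.comp (by fun_prop)
  exact int_lf p (co K c) h

/-! ### (F2) -/

/-- the conditional mean given the position, for the law with the weight `w` and the variances `r`
of the noise -/
noncomputable def cT (r : ι → ℝ) (w φ : (ι → ℝ) → ℝ) (y : ι → ℝ) : ℝ :=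
  Tc r (fun y => w y * φ y) y / Tc r w y

/-- the marginal weight of the frozen coordinates -/
theorem wn_T {w : (ι → ℝ) → ℝ} (hw : Measurable w) (z : κ → ℝ) :
    wn (fun _ : κ => gaussianReal 0 1) K (fun z => w (lf p c z)) z =
      Tc (vf p (co K c)) w (lf p (re K c) z) := by
  unfold wn
  simp only [lf_glue]
  exact int_co hw _

/-- **(F2)** the conditional mean given the frozen coordinates -/
theorem cx_T {w φ : (ι → ℝ) → ℝ} (hw : Measurable w) (hφ : Measurable φ) (z : κ → ℝ) :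
    cx (fun _ : κ => gaussianReal 0 1) K (fun z => w (lf p c z)) (fun z => φ (lf p c z)) z =
      cT (vf p (co K c)) w φ (lf p (re K c) z) := by
  unfold cx cT
  rw [wn_T hw]
  congr 1
  simp only [lf_glue]
  exact int_co (hw.mul hφ) _

/-! ### (F3) -/

/-- the bound of the linear map -/
lemma norm_lf_le (p : κ → ι) (c : κ → ℝ) (z : κ → ℝ) : ‖lf p c z‖ ≤ (∑ j, |c j|) * ‖z‖ := by
  have h0 : 0 ≤ ∑ j, |c j| := Finset.sum_nonneg fun _ _ => abs_nonneg _
  rw [pi_norm_le_iff_of_nonneg (mul_nonneg h0 (norm_nonneg _))]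
  intro e
  unfold lf
  rw [Real.norm_eq_abs]
  calc |∑ j with p j = e, c j * z j| ≤ ∑ j with p j = e, |c j * z j| :=
        Finset.abs_sum_le_sum_abs _ _
    _ ≤ ∑ j, |c j * z j| := Finset.sum_le_sum_of_subset_of_nonneg (Finset.filter_subset _ _)
        fun _ _ _ => abs_nonneg _
    _ ≤ ∑ j, |c j| * ‖z‖ := Finset.sum_le_sum fun j _ => by
        rw [abs_mul]
        exact mul_le_mul_of_nonneg_left (by rw [← Real.norm_eq_abs]; exact norm_le_pi_norm z j)
          (abs_nonneg _)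
    _ = _ := by rw [Finset.sum_mul]

lemma eg_lf {G : (ι → ℝ) → ℝ} (hG : EG G) (p : κ → ι) (c : κ → ℝ) : EG fun z => G (lf p c z) := by
  obtain ⟨C, a, hC, ha, h⟩ := hG.bdd
  refine ⟨hG.meas.comp (measurable_lf p c), C, a * ∑ j, |c j|, hC,
    mul_nonneg ha (Finset.sum_nonneg fun _ _ => abs_nonneg _), fun z => (h _).trans ?_⟩
  refine mul_le_mul_of_nonneg_left (Real.exp_le_exp.2 ?_) hC
  rw [mul_assoc]
  exact mul_le_mul_of_nonneg_left (norm_lf_le p c z) ha

/-- **(F3)** functions of the position -/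
theorem int_pos {w Φ : (ι → ℝ) → ℝ} (hw : EG w) (hΦ : EG Φ) :
    ∫ z, w (lf p c z) * Φ (lf p (re K c) z) ∂(gI κ) =
      ∫ y, Tc (vf p (co K c)) w (fun e => √(vf p (re K c) e) * y e) *
        Φ (fun e => √(vf p (re K c) e) * y e) ∂(gI ι) := by
  have hi : Integrable (fun z => w (lf p c z) * Φ (lf p (re K c) z)) (gI κ) :=
    ((eg_lf hw p c).mul (eg_lf hΦ p (re K c))).integrable
  have h1 := integral_glue (fun _ : κ => gaussianReal 0 1) K hi
  rw [← h1]
  have h2 : ∀ z : κ → ℝ, ∫ z', w (lf p c (glue K z z')) * Φ (lf p (re K c) (glue K z z'))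
      ∂(Measure.pi fun _ : κ => gaussianReal 0 1) =
      (fun y => Tc (vf p (co K c)) w y * Φ y) (lf p (re K c) z) := by
    intro z
    have e1 : ∀ z' : κ → ℝ, lf p (re K c) (glue K z z') = lf p (re K c) z := fun z' =>
      funext fun e => lf_re_glue z z' e
    simp only [e1, lf_glue]
    rw [integral_mul_const]
    congr 1
    exact int_co hw.meas _
  simp only [h2]
  exact int_lf p (re K c) ((H325.EG.Tc hw _).meas.mul hΦ.meas)

/-! ### (F4) -/

/-- the block form of `H332` -/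
theorem P_eq_Tc {A0 : Finset ι} {q r q0 r0 : ι → ℝ} {s : ℝ} (hq : ∀ e ∈ A0, q e = s)
    (hr : ∀ e ∈ A0, r e = 1 - s) (hq0 : ∀ e ∉ A0, q e = q0 e) (hr0 : ∀ e ∉ A0, r e = r0 e)
    (G : (ι → ℝ) → ℝ) (w : ι ⊕ ι → ℝ) :
    P A0 (fun e => √(q0 e)) 0 (fun e => √(r0 e)) G s w =
      Tc r G (fun e => √(q e) * w (Sum.inl e)) := by
  unfold P Tc
  congr 1
  funext z
  congr 1
  funext e
  unfold pt u
  by_cases he : e ∈ A0
  · simp only [if_pos he, hq e he, hr e he]
  · simp only [if_neg he, Pi.zero_apply, zero_mul, add_zero, hq0 e he, hr0 e he]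

lemma eg_of_bd {f : (ι → ℝ) → ℝ} (hm : Measurable f) {C : ℝ} (hb : ∀ y, |f y| ≤ C) : EG f :=
  ⟨hm, |C|, 0, abs_nonneg _, le_rfl, fun y => by
    rw [zero_mul, Real.exp_zero, mul_one]
    exact (hb y).trans (le_abs_self C)⟩

section cT

variable {F : (ι → ℝ) → ℝ} {D : ι → (ι → ℝ) → ℝ} {B L x : ℝ} {φ : (ι → ℝ) → ℝ}

/-- the weight -/
noncomputable def We (x : ℝ) (F : (ι → ℝ) → ℝ) (y : ι → ℝ) : ℝ := Real.exp (x * F y)

lemma eg_We (h : C11 F D B L) (x : ℝ) : EG (We x F) := h.eg_exp x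

lemma cm_eq_cT {A0 : Finset ι} {q r q0 r0 : ι → ℝ} {s : ℝ} (hq : ∀ e ∈ A0, q e = s)
    (hr : ∀ e ∈ A0, r e = 1 - s) (hq0 : ∀ e ∉ A0, q e = q0 e) (hr0 : ∀ e ∉ A0, r e = r0 e)
    (x : ℝ) (F φ : (ι → ℝ) → ℝ) (w : ι ⊕ ι → ℝ) :
    H118.cm A0 (fun e => √(q0 e)) 0 (fun e => √(r0 e)) x F φ s w =
      cT r (We x F) φ (fun e => √(q e) * w (Sum.inl e)) := by
  unfold H118.cm H118.zd cT
  rw [P_eq_Tc hq hr hq0 hr0, P_eq_Tc hq hr hq0 hr0, ← div_eq_mul_inv]
  rfl

lemma cT_eq_cm (r : ι → ℝ) (x : ℝ) (F φ : (ι → ℝ) → ℝ) (y : ι → ℝ) :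
    cT r (We x F) φ y =
      H118.cm (∅ : Finset ι) (fun e => √((fun _ => (1 : ℝ)) e)) 0 (fun e => √(r e)) x F φ 0
        (Sum.elim y 0) := by
  rw [cm_eq_cT (A0 := ∅) (q := fun _ => 1) (r := r) (q0 := fun _ => 1) (r0 := r)
    (by simp) (by simp) (by simp) (by simp)]
  congr 1
  funext e
  simp

lemma abs_cT_le (h : C11 F D B L) (hφ : EG φ) {C : ℝ} (hb : ∀ y, |φ y| ≤ C) (r : ι → ℝ)
    (y : ι → ℝ) : |cT r (We x F) φ y| ≤ C := by
  rw [cT_eq_cm]
  exact H118.abs_cm_le h hφ hb _ _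

lemma meas_cT (h : C11 F D B L) (hφ : EG φ) (r : ι → ℝ) : Measurable (cT r (We x F) φ) :=
  (H325.EG.Tc ((eg_We h x).mul hφ) r).meas.div (H325.EG.Tc (eg_We h x) r).meas

lemma eg_cT (h : C11 F D B L) (hφ : EG φ) {C : ℝ} (hb : ∀ y, |φ y| ≤ C) (r : ι → ℝ) :
    EG (cT r (We x F) φ) := eg_of_bd (meas_cT h hφ r) (abs_cT_le h hφ hb r)

/-- the total mass does not depend on the levels -/
lemma int_We (h : C11 F D B L) (x : ℝ) (hc : ∀ e, vf p c e = 1) :
    ∫ z, We x F (lf p c z) ∂(gI κ) = ∫ y, We x F y ∂(gI ι) := by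
  rw [int_lf p c (eg_We h x).meas]
  simp only [hc, Real.sqrt_one, one_mul]

end cT

/-- The data: a set `K` of frozen coordinates such that the frozen share of `e` is `s` for `e ∈ A0`
and `q0 e` for the other coordinates. -/
structure Fz (p : κ → ι) (c : κ → ℝ) (K : Finset κ) (A0 : Finset ι) (q0 : ι → ℝ) (s : ℝ) :
    Prop where
  one : ∀ e, vf p c e = 1
  act : ∀ e ∈ A0, vf p (re K c) e = s
  fro : ∀ e ∉ A0, vf p (re K c) e = q0 e

namespace Fz

variable {A0 : Finset ι} {q0 : ι → ℝ} {s : ℝ} (hz : Fz p c K A0 q0 s)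
include hz

lemma co_act : ∀ e ∈ A0, vf p (co K c) e = 1 - s := by
  intro e he
  have h1 := vf_split p c K e
  rw [hz.one, hz.act e he] at h1
  linarith

lemma co_fro : ∀ e ∉ A0, vf p (co K c) e = (fun e => 1 - q0 e) e := by
  intro e he
  have h1 := vf_split p c K e
  rw [hz.one, hz.fro e he] at h1
  show _ = 1 - q0 e
  linarith

/-- functions of the position: the level system against the block form -/
theorem int_eq {w Φ : (ι → ℝ) → ℝ} (hw : EG w) (hΦ : EG Φ) :
    ∫ z, w (lf p c z) * Φ (lf p (re K c) z) ∂(gI κ) =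
      ∫ v, P A0 (fun e => √(q0 e)) 0 (fun e => √(1 - q0 e)) w s v *
        Φ (fun e => √(vf p (re K c) e) * v (Sum.inl e)) ∂(gI (ι ⊕ ι)) := by
  rw [int_pos hw hΦ]
  simp only [P_eq_Tc hz.act hz.co_act hz.fro hz.co_fro w]
  have h1 : EG fun y : ι → ℝ => Tc (vf p (co K c)) w (fun e => √(vf p (re K c) e) * y e) *
      Φ (fun e => √(vf p (re K c) e) * y e) := by
    have := H325.EG.aff ((H325.EG.Tc hw (vf p (co K c))).mul hΦ) 0
      (fun e => √(vf p (re K c) e))
    simpa only [Pi.zero_apply, zero_add] using this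
  exact (int_inl h1).symm

end Fz

end Vale.Agent.P146.H246
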